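import Vale.Agent.P013.Mertens
import Vale.Agent.P031.Euler

/-!
# Bounds on sums of reciprocals of primes needed by the sieve
-/

open Finset
open scoped Classical

namespace Vale.Agent.P031

/-- The sum of the reciprocals of the primes up to `z`. -/
noncomputable def recipSum (z : ℕ) : ℝ :=
  ∑ p ∈ (range (z + 1)).filter Nat.Prime, (1 : ℝ) / p

/-- Mertens's lower bound. -/
lemma recipSum_ge (z : ℕ) (hz : 2 ≤ z) : Real.log (Real.log z) - 2 ≤ recipSum z := by
  set S := (range (z + 1)).filter Nat.Prime with hS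
  have hprime : ∀ p ∈ S, p.Prime := fun p hp => (mem_filter.1 hp).2
  have hzR : (2 : ℝ) ≤ z := by exact_mod_cast hz
  have hlz : 0 < Real.log z := Real.log_pos (by linarith)
  have he := euler_sum (fun _ => 1) S hprime
    (fun p hp => ⟨zero_le_one, by exact_mod_cast (hprime p hp).one_lt⟩) (Icc 1 z) (fun n hn => by
      rw [mem_Icc] at hn
      refine ⟨hn.1, fun q hq => ?_⟩
      have hq' := Nat.mem_primeFactors.1 hq
      exact mem_filter.2 ⟨mem_range.2 (by have := Nat.le_of_dvd hn.1 hq'.2.1; omega), hq'.1⟩)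
  have hharm : Real.log z ≤ ∑ n ∈ Icc 1 z, (1 : ℝ) / n := by
    have h := log_add_one_le_harmonic z
    rw [harmonic_eq_sum_Icc, Rat.cast_sum] at h
    simp only [Rat.cast_inv, Rat.cast_natCast] at h
    simp only [one_div]
    refine le_trans (Real.log_le_log (by linarith) ?_) h
    push_cast
    linarith
  have hwt : ∀ n, wt (fun _ => 1) n = 1 := fun n => by simp [wt, List.map_const']
  simp only [hwt] at he
  have hpos : 0 < ∏ p ∈ S, (1 - (1 : ℝ) / p)⁻¹ := lt_of_lt_of_le hlz (hharm.trans he)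
  have hprod : ∏ p ∈ S, (1 - (1 : ℝ) / p)⁻¹ ≤
      Real.exp (∑ p ∈ S, ((1 : ℝ) / p + 2 * ((1 : ℝ) / p) ^ 2)) := by
    rw [Real.exp_sum]
    refine prod_le_prod (fun p hp => ?_) fun p hp => ?_
    · have : (1 : ℝ) / p < 1 := by
        rw [div_lt_one (by exact_mod_cast (hprime p hp).pos)]
        exact_mod_cast (hprime p hp).one_lt
      exact inv_nonneg.2 (by linarith)
    · have hx : (1 : ℝ) / p ≤ 1 / 2 :=
        one_div_le_one_div_of_le (by norm_num) (by exact_mod_cast (hprime p hp).two_le)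
      have hx0 : 0 ≤ (1 : ℝ) / p := by positivity
      set x : ℝ := 1 / p
      refine le_trans ?_ (Real.add_one_le_exp _)
      rw [inv_le_iff_one_le_mul₀ (by linarith)]
      nlinarith
  have hsq : ∑ p ∈ S, ((1 : ℝ) / p) ^ 2 ≤ 1 := by
    have h : ∀ m : ℕ, ∑ n ∈ Ioc 1 (m + 1), ((1 : ℝ) / n) ^ 2 ≤ 1 - 1 / ((m : ℝ) + 1) := by
      intro m
      induction m with
      | zero => simp
      | succ m ih =>
        rw [sum_Ioc_succ_top (by omega)]
        push_cast
        have key : (1 / ((m : ℝ) + 1 + 1)) ^ 2 ≤ 1 / ((m : ℝ) + 1) - 1 / ((m : ℝ) + 1 + 1) := by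
          rw [div_sub_div _ _ (by positivity) (by positivity), one_mul, mul_one,
            add_sub_cancel_left, div_pow, one_pow, sq]
          gcongr
          linarith
        linarith
    calc ∑ p ∈ S, ((1 : ℝ) / p) ^ 2 ≤ ∑ n ∈ Ioc 1 (z + 1), ((1 : ℝ) / n) ^ 2 :=
          sum_le_sum_of_subset_of_nonneg (fun p hp => by
            have := (hprime p hp).two_le
            have := mem_range.1 (mem_filter.1 hp).1
            exact mem_Ioc.2 ⟨by omega, by omega⟩) (fun _ _ _ => sq_nonneg _)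
      _ ≤ _ := (h z).trans (by have : (0 : ℝ) ≤ 1 / ((z : ℝ) + 1) := by positivity
                               linarith)
  have hfin := Real.log_le_log hlz ((hharm.trans he).trans hprod)
  rw [Real.log_exp, sum_add_distrib, ← mul_sum] at hfin
  show _ ≤ ∑ p ∈ S, (1 : ℝ) / p
  linarith

/-- Primes up to `L` have reciprocal sum `O(log log L)`. -/
lemma exp_recip_small (k : ℕ) : ∃ C : ℝ, 0 < C ∧ ∃ e : ℕ, ∀ (L : ℝ) (S : Finset ℕ), 2 ≤ L →
    (∀ p ∈ S, p.Prime ∧ (p : ℝ) ≤ L) →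
    Real.exp ((k : ℝ) * ∑ p ∈ S, (1 : ℝ) / p) ≤ C * Real.log L ^ e := by
  obtain ⟨K, hK0, hK⟩ := P013.prime_range
  set l2 := Real.log 2 with hl2
  have hl : 0 < l2 := Real.log_pos (by norm_num)
  set q := 1 + K / l2 with hq
  have hq0 : 0 ≤ q := by positivity
  obtain ⟨e, he⟩ := exists_nat_ge ((k : ℝ) * q / l2)
  refine ⟨Real.exp ((k : ℝ) * (1 / 2 + q)) / l2 ^ e, by positivity, e, fun L S hL hS => ?_⟩
  set R := Real.log L / l2 with hR
  have hR1 : 1 ≤ R := by
    rw [hR, one_le_div hl]; exact Real.log_le_log (by norm_num) hL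
  have hlR : 0 ≤ Real.log R := Real.log_nonneg hR1
  set m := ⌈Real.log R / l2⌉₊ with hm
  have hm1 : (m : ℝ) ≤ Real.log R / l2 + 1 := (Nat.ceil_lt_add_one (by positivity)).le
  have hpow : R ≤ (2 : ℝ) ^ m := by
    rw [← Real.rpow_natCast, Real.rpow_def_of_pos (by norm_num)]
    refine le_trans (le_of_eq (Real.exp_log (by linarith)).symm) (Real.exp_le_exp.2 ?_)
    have h := Nat.le_ceil (Real.log R / l2)
    rw [← hm, div_le_iff₀ hl] at h
    linarith
  have hLpow : L ≤ (2 : ℝ) ^ ((2 : ℝ) ^ m) := by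
    rw [Real.rpow_def_of_pos (by norm_num)]
    refine le_trans (le_of_eq (Real.exp_log (by linarith)).symm) (Real.exp_le_exp.2 ?_)
    rw [hR, div_le_iff₀ hl] at hpow
    linarith
  have h2 : ∑ p ∈ S.filter (fun p : ℕ => (p : ℝ) ≤ 2), (1 : ℝ) / p ≤ 1 / 2 := by
    refine le_trans (sum_le_sum_of_subset_of_nonneg (t := {2}) (fun p hp => ?_)
      (fun p _ _ => by positivity)) (by simp)
    rw [mem_filter] at hp
    have h1 := (hS p hp.1).1.two_le
    have h2 : p ≤ 2 := by exact_mod_cast hp.2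
    rw [Finset.mem_singleton]
    omega
  have hbig : ∑ p ∈ S.filter (fun p : ℕ => ¬(p : ℝ) ≤ 2), (1 : ℝ) / p ≤ m * q := by
    refine (hK 2 2 m _ le_rfl one_le_two fun p hp => ?_).trans (le_of_eq ?_)
    · rw [mem_filter] at hp
      exact ⟨(hS p hp.1).1, not_le.1 hp.2, (hS p hp.1).2.trans hLpow⟩
    · rw [hq, ← hl2]; ring
  have hsum : ∑ p ∈ S, (1 : ℝ) / p ≤ 1 / 2 + (Real.log R / l2 + 1) * q := by
    rw [← sum_filter_add_sum_filter_not S (fun p : ℕ => (p : ℝ) ≤ 2)]
    exact add_le_add h2 (hbig.trans (mul_le_mul_of_nonneg_right hm1 hq0))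
  calc Real.exp ((k : ℝ) * ∑ p ∈ S, (1 : ℝ) / p)
      ≤ Real.exp ((k : ℝ) * (1 / 2 + q) + (k : ℝ) * q / l2 * Real.log R) := by
        refine Real.exp_le_exp.2 ((mul_le_mul_of_nonneg_left hsum (Nat.cast_nonneg k)).trans
          (le_of_eq ?_))
        ring
    _ ≤ Real.exp ((k : ℝ) * (1 / 2 + q) + (e : ℝ) * Real.log R) := by gcongr
    _ = _ := by
        rw [Real.exp_add, ← Real.log_pow, Real.exp_log (by positivity), hR, div_pow]
        ring

/-- The primes dividing `m` have reciprocal sum `O(log log log m)`. -/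
lemma exp_recip_factors (k : ℕ) : ∃ C : ℝ, 0 < C ∧ ∃ e : ℕ, ∀ m : ℕ, 0 < m →
    Real.exp ((k : ℝ) * ∑ p ∈ m.primeFactors, (1 : ℝ) / p) ≤
      C * Real.log (Real.log ((m : ℝ) + 16)) ^ e := by
  obtain ⟨C, hC, e, he⟩ := exp_recip_small k
  refine ⟨Real.exp (2 * k) * C, by positivity, e, fun m hm => ?_⟩
  set L := Real.log ((m : ℝ) + 16) with hL
  have hm1 : (1 : ℝ) ≤ m := by exact_mod_cast hm
  have hl2 : 1 / 2 ≤ Real.log 2 := by linarith [Real.log_two_gt_d9]
  have h16 : Real.log 16 = 4 * Real.log 2 := by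
    rw [show (16 : ℝ) = 2 ^ 4 by norm_num, Real.log_pow]; norm_num
  have hL2 : 2 ≤ L := by
    have : Real.log 16 ≤ L := Real.log_le_log (by norm_num) (by linarith)
    linarith
  have hbig : ∑ p ∈ m.primeFactors.filter (fun p : ℕ => ¬(p : ℝ) ≤ L), (1 : ℝ) / p ≤ 2 := by
    have h2 : ∀ p ∈ m.primeFactors, 2 ≤ p := fun p hp => (Nat.prime_of_mem_primeFactors hp).two_le
    have hcard : (m.primeFactors.card : ℝ) * Real.log 2 ≤ L := by
      rw [← Real.log_pow]
      refine Real.log_le_log (by positivity) ?_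
      have h3 : 2 ^ m.primeFactors.card ≤ m := by
        refine le_trans ?_ (Nat.le_of_dvd hm (Nat.prod_primeFactors_dvd m))
        rw [← prod_const]
        exact prod_le_prod' h2
      have h3' : (2 : ℝ) ^ m.primeFactors.card ≤ m := by exact_mod_cast h3
      linarith
    calc ∑ p ∈ m.primeFactors.filter (fun p : ℕ => ¬(p : ℝ) ≤ L), (1 : ℝ) / p
        ≤ ∑ _p ∈ m.primeFactors.filter (fun p : ℕ => ¬(p : ℝ) ≤ L), 1 / L :=
          sum_le_sum fun p hp => one_div_le_one_div_of_le (by linarith)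
            (not_le.1 (mem_filter.1 hp).2).le
      _ ≤ ∑ _p ∈ m.primeFactors, 1 / L :=
          sum_le_sum_of_subset_of_nonneg (filter_subset _ _) fun _ _ _ => by positivity
      _ ≤ 2 := by
          rw [sum_const, nsmul_eq_mul, mul_one_div, div_le_iff₀ (by linarith)]
          nlinarith [Nat.cast_nonneg (α := ℝ) m.primeFactors.card]
  have hsmall := he L (m.primeFactors.filter fun p : ℕ => (p : ℝ) ≤ L) hL2 fun p hp =>
    ⟨Nat.prime_of_mem_primeFactors (mem_filter.1 hp).1, (mem_filter.1 hp).2⟩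
  rw [← sum_filter_add_sum_filter_not m.primeFactors (fun p : ℕ => (p : ℝ) ≤ L), mul_add,
    Real.exp_add, mul_comm, mul_assoc]
  exact mul_le_mul (Real.exp_le_exp.2 (by nlinarith [Nat.cast_nonneg (α := ℝ) k])) hsmall
    (Real.exp_nonneg _) (Real.exp_nonneg _)

end Vale.Agent.P031
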