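import Mathlib

/-!
# Counting integers in prescribed classes modulo several primes
-/

open Finset
open scoped Classical

namespace Vale.Agent.P031

/-- Number of classes modulo `p` that are struck out. -/
noncomputable def roots (hit : ℕ → ℕ → Prop) (p : ℕ) : ℕ :=
  ((Finset.range p).filter (fun r => hit p r)).card

/-- `hit p` depends only on the class modulo `p`, for `p` in `P`. -/
def Periodic' (hit : ℕ → ℕ → Prop) (P : Finset ℕ) : Prop :=
  ∀ p ∈ P, ∀ n, hit p n ↔ hit p (n % p)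

lemma roots_le (hit : ℕ → ℕ → Prop) (p : ℕ) : roots hit p ≤ p :=
  (card_filter_le _ _).trans_eq (card_range p)

lemma card_allHit_range {hit : ℕ → ℕ → Prop} (T : Finset ℕ) (hT : ∀ p ∈ T, p.Prime)
    (hper : Periodic' hit T) :
    ((range (∏ p ∈ T, p)).filter (fun r => ∀ p ∈ T, hit p r)).card = ∏ p ∈ T, roots hit p := by
  induction T using Finset.induction with
  | empty => simp
  | @insert p T hp ih =>
    have hpp : p.Prime := hT p (mem_insert_self p T)
    have hT' : ∀ q ∈ T, q.Prime := fun q hq => hT q (mem_insert_of_mem hq)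
    set d := ∏ q ∈ T, q with hd
    have hd0 : 0 < d := Finset.prod_pos fun q hq => (hT' q hq).pos
    have hco : p.Coprime d := Nat.Coprime.prod_right fun q hq =>
      (Nat.coprime_primes hpp (hT' q hq)).2 (fun h => hp (h ▸ hq))
    have hdiv : ∀ q ∈ T, q ∣ d := fun q hq => dvd_prod_of_mem (fun q => q) hq
    rw [prod_insert hp, prod_insert hp, ← ih hT' (fun q hq => hper q (mem_insert_of_mem hq)),
      roots, ← card_product]
    refine card_bij (fun r _ => (r % p, r % d)) ?_ ?_ ?_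
    · intro r hr
      simp only [mem_filter, mem_range, mem_product] at hr ⊢
      refine ⟨⟨Nat.mod_lt _ hpp.pos,
        (hper p (mem_insert_self p T) r).1 (hr.2 p (mem_insert_self p T))⟩,
        Nat.mod_lt _ hd0, fun q hq => ?_⟩
      have hq' := mem_insert_of_mem (a := q) (b := p) hq
      rw [hper q hq' (r % d), Nat.mod_mod_of_dvd r (hdiv q hq), ← hper q hq' r]
      exact hr.2 q hq'
    · intro r hr r' hr' h
      simp only [Prod.mk.injEq] at h
      simp only [mem_filter, mem_range] at hr hr'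
      exact ((Nat.modEq_and_modEq_iff_modEq_mul hco).1 h).eq_of_lt_of_lt hr.1 hr'.1
    · rintro ⟨u, v⟩ huv
      simp only [mem_filter, mem_range, mem_product] at huv
      obtain ⟨c, hc1, hc2⟩ := Nat.chineseRemainder hco u v
      refine ⟨c % (p * d), ?_, ?_⟩
      · simp only [mem_filter, mem_range]
        refine ⟨Nat.mod_lt _ (Nat.mul_pos hpp.pos hd0), fun q hq => ?_⟩
        rw [hper q hq (c % (p * d))]
        rcases mem_insert.1 hq with rfl | hq'
        · rw [Nat.mod_mod_of_dvd _ (dvd_mul_right q d), hc1, Nat.mod_eq_of_lt huv.1.1]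
          exact huv.1.2
        · rw [Nat.mod_mod_of_dvd _ ((hdiv q hq').trans (dvd_mul_left d p)),
            ← Nat.mod_mod_of_dvd c (hdiv q hq'), hc2, Nat.mod_mod_of_dvd v (hdiv q hq'),
            ← hper q hq v]
          exact huv.2.2 q hq'
      · simp only [Nat.mod_mul_right_mod, Nat.mod_mul_left_mod, Prod.mk.injEq]
        exact ⟨Eq.trans hc1 (Nat.mod_eq_of_lt huv.1.1), Eq.trans hc2 (Nat.mod_eq_of_lt huv.2.1)⟩

/-- One class modulo `d` has `N / d` elements up to `N`, up to one. -/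
lemma class_count (d r N : ℕ) (hd : 0 < d) :
    |(((Ioc 0 N).filter (fun n => n ≡ r [MOD d])).card : ℝ) - (N : ℝ) / d| ≤ 1 := by
  have h := Nat.Ioc_filter_modEq_card 0 N hd r
  set c := ((Ioc 0 N).filter (fun n => n ≡ r [MOD d])).card with hc
  have h1 := Int.floor_le (((N : ℕ) - (r : ℕ) : ℚ) / (d : ℚ))
  have h2 := Int.lt_floor_add_one (((N : ℕ) - (r : ℕ) : ℚ) / (d : ℚ))
  have h3 := Int.floor_le ((((0 : ℕ) : ℚ) - (r : ℕ)) / (d : ℚ))
  have h4 := Int.lt_floor_add_one ((((0 : ℕ) : ℚ) - (r : ℕ)) / (d : ℚ))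
  have hdq : (0 : ℚ) < d := by exact_mod_cast hd
  have hq : (c : ℚ) ≤ (N : ℚ) / d + 1 ∧ (N : ℚ) / d ≤ (c : ℚ) + 1 := by
    have h' : (c : ℤ) = max (⌊((N : ℕ) - (r : ℕ) : ℚ) / (d : ℚ)⌋ -
      ⌊(((0 : ℕ) : ℚ) - (r : ℕ)) / (d : ℚ)⌋) 0 := by
      convert h using 3
    have hcq : (c : ℚ) = max ((⌊((N : ℕ) - (r : ℕ) : ℚ) / (d : ℚ)⌋ : ℚ) -
        ⌊(((0 : ℕ) : ℚ) - (r : ℕ)) / (d : ℚ)⌋) 0 := by
      exact_mod_cast h'
    have hNd : (0 : ℚ) ≤ (N : ℚ) / d := by positivity
    simp only [Nat.cast_zero, zero_sub, sub_div, neg_div] at *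
    rw [hcq]
    refine ⟨max_le ?_ (by linarith), le_trans ?_ (add_le_add (le_max_left _ _) le_rfl)⟩
    · linarith
    · linarith
  have hdR : (0 : ℝ) < d := by exact_mod_cast hd
  have hN1 : (c : ℝ) * d ≤ N + d := by
    have : (c : ℚ) * d ≤ N + d := by
      have := hq.1
      rw [div_add_one hdq.ne', le_div_iff₀ hdq] at this
      linarith
    exact_mod_cast this
  have hN2 : (N : ℝ) ≤ (c : ℝ) * d + d := by
    have : (N : ℚ) ≤ (c : ℚ) * d + d := by
      have := hq.2
      rw [div_le_iff₀ hdq] at this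
      linarith
    exact_mod_cast this
  rw [abs_le, sub_le_iff_le_add]
  constructor
  · rw [le_sub_iff_add_le, ← sub_eq_neg_add, sub_le_iff_le_add, div_le_iff₀ hdR]
    nlinarith
  · rw [add_comm, div_add_one hdR.ne', le_div_iff₀ hdR]
    linarith

/-- Integers up to `N` struck at every prime of `T`. -/
lemma count_allHit {hit : ℕ → ℕ → Prop} (T : Finset ℕ) (hT : ∀ p ∈ T, p.Prime)
    (hper : Periodic' hit T) (N : ℕ) :
    |(((Ioc 0 N).filter (fun n => ∀ p ∈ T, hit p n)).card : ℝ) -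
      N * ∏ p ∈ T, (roots hit p : ℝ) / p| ≤ ∏ p ∈ T, (roots hit p : ℝ) := by
  set d := ∏ q ∈ T, q with hd
  have hd0 : 0 < d := Finset.prod_pos fun q hq => (hT q hq).pos
  set R := (range d).filter (fun r => ∀ p ∈ T, hit p r) with hR
  have hmod : ∀ n, (∀ p ∈ T, hit p (n % d)) ↔ ∀ p ∈ T, hit p n := by
    intro n
    refine forall₂_congr fun p hp => ?_
    rw [hper p hp (n % d), Nat.mod_mod_of_dvd n (dvd_prod_of_mem (fun q => q) hp), ← hper p hp n]
  set A := (Ioc 0 N).filter (fun n => ∀ p ∈ T, hit p n) with hA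
  have hfib : A.card = ∑ r ∈ R, ((Ioc 0 N).filter (fun n => n ≡ r [MOD d])).card := by
    rw [card_eq_sum_card_fiberwise (f := fun n => n % d) (t := R) ?_]
    · refine sum_congr rfl fun r hr => congrArg Finset.card ?_
      simp only [hR, mem_filter, mem_range] at hr
      ext n
      simp only [hA, mem_filter, Nat.ModEq, Nat.mod_eq_of_lt hr.1]
      constructor
      · exact fun h => ⟨h.1.1, h.2⟩
      · exact fun h => ⟨⟨h.1, (hmod n).1 (h.2.symm ▸ hr.2)⟩, h.2⟩
    · intro n hn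
      simp only [hA, coe_filter, Set.mem_ofPred_eq] at hn
      simp only [hR, coe_filter, Set.mem_ofPred_eq, mem_range]
      exact ⟨Nat.mod_lt _ hd0, (hmod n).2 hn.2⟩
  have hcard : (R.card : ℝ) = ∏ p ∈ T, (roots hit p : ℝ) := by
    rw [hR, hd, card_allHit_range T hT hper]
    push_cast
    rfl
  have hmain : (N : ℝ) * ∏ p ∈ T, (roots hit p : ℝ) / p = ∑ _r ∈ R, (N : ℝ) / d := by
    rw [sum_const, nsmul_eq_mul, hcard, prod_div_distrib, hd, Nat.cast_prod]
    ring
  rw [hfib, hmain, Nat.cast_sum, ← sum_sub_distrib, ← hcard]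
  refine (abs_sum_le_sum_abs _ _).trans ((sum_le_sum fun r _ => class_count d r N hd0).trans ?_)
  simp

end Vale.Agent.P031
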