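import Vale.Agent.P013.Mertens
import Vale.Agent.P031.Sieve.Count

/-!
# An upper bound sieve of bounded dimension
-/

open Finset
open scoped Classical ArithmeticFunction.Moebius

namespace Vale.Agent.P031

/-- The product of the primes of `P` at which `n` is struck. -/
noncomputable def struck (hit : ℕ → ℕ → Prop) (P : Finset ℕ) (n : ℕ) : ℕ :=
  ∏ p ∈ P.filter (fun p => hit p n), p

lemma squarefree_primeProd (P : Finset ℕ) (hP : ∀ p ∈ P, p.Prime) :
    Squarefree (∏ p ∈ P, p) :=
  Finset.squarefree_prod_of_pairwise_isCoprime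
    (fun p hp q hq h => Nat.coprime_iff_isRelPrime.1 <|
      (Nat.coprime_primes (hP p hp) (hP q hq)).2 h)
    (fun p hp => (hP p hp).squarefree)

lemma sum_divisors_primeProd (P : Finset ℕ) (hP : ∀ p ∈ P, p.Prime) (f : ℕ → ℝ) :
    ∑ l ∈ (∏ p ∈ P, p).divisors, f l = ∑ T ∈ P.powerset, f (∏ p ∈ T, p) := by
  have h0 : (∏ p ∈ P, p) ≠ 0 := prod_ne_zero_iff.2 fun p hp => (hP p hp).ne_zero
  refine sum_nbij' (fun l => l.primeFactors) (fun T => ∏ p ∈ T, p) ?_ ?_ ?_ ?_ ?_
  · intro l hl
    simp only [Nat.mem_divisors] at hl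
    rw [mem_powerset]
    have := Nat.primeFactors_mono hl.1 h0
    rwa [Nat.primeFactors_prod hP] at this
  · intro T hT
    rw [mem_powerset] at hT
    exact Nat.mem_divisors.2 ⟨prod_dvd_prod_of_subset T P (fun p => p) hT, h0⟩
  · intro l hl
    simp only [Nat.mem_divisors] at hl
    exact Nat.prod_primeFactors_of_squarefree
      (Squarefree.squarefree_of_dvd hl.1 (squarefree_primeProd P hP))
  · intro T hT
    rw [mem_powerset] at hT
    exact Nat.primeFactors_prod fun p hp => hP p (hT hp)
  · intro l hl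
    simp only [Nat.mem_divisors] at hl
    show f l = f (∏ p ∈ l.primeFactors, p)
    rw [Nat.prod_primeFactors_of_squarefree
      (Squarefree.squarefree_of_dvd hl.1 (squarefree_primeProd P hP))]

/-- The data of the sieve by the classes of `hit`. -/
noncomputable def sieveData (hit : ℕ → ℕ → Prop) (P : Finset ℕ) (N : ℕ)
    (hP : ∀ p ∈ P, p.Prime) (hw : ∀ p ∈ P, 1 ≤ roots hit p ∧ roots hit p < p) :
    BoundingSieve where
  support := (Ioc 0 N).image (struck hit P)
  prodPrimes := ∏ p ∈ P, p
  prodPrimes_squarefree := squarefree_primeProd P hP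
  weights v := (((Ioc 0 N).filter (fun n => struck hit P n = v)).card : ℝ)
  weights_nonneg _ := Nat.cast_nonneg _
  totalMass := N
  nu := .prodPrimeFactors fun p => (roots hit p : ℝ) / p
  nu_mult := ArithmeticFunction.IsMultiplicative.prodPrimeFactors _
  nu_pos_of_prime p hp hdvd := by
    rw [ArithmeticFunction.prodPrimeFactors_apply hp.ne_zero, hp.primeFactors, prod_singleton]
    have : p ∈ P := by
      have := Nat.mem_primeFactors.2
        ⟨hp, hdvd, prod_ne_zero_iff.2 fun q hq => (hP q hq).ne_zero⟩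
      rwa [Nat.primeFactors_prod hP] at this
    exact div_pos (by exact_mod_cast (hw p this).1) (by exact_mod_cast hp.pos)
  nu_lt_one_of_prime p hp hdvd := by
    rw [ArithmeticFunction.prodPrimeFactors_apply hp.ne_zero, hp.primeFactors, prod_singleton]
    have : p ∈ P := by
      have := Nat.mem_primeFactors.2
        ⟨hp, hdvd, prod_ne_zero_iff.2 fun q hq => (hP q hq).ne_zero⟩
      rwa [Nat.primeFactors_prod hP] at this
    rw [div_lt_one (by exact_mod_cast hp.pos)]
    exact_mod_cast (hw p this).2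

variable {hit : ℕ → ℕ → Prop} {P : Finset ℕ} {N : ℕ} (hP : ∀ p ∈ P, p.Prime)
  (hw : ∀ p ∈ P, 1 ≤ roots hit p ∧ roots hit p < p)

lemma sieveData_nu {T : Finset ℕ} (hT : T ⊆ P) :
    (sieveData hit P N hP hw).nu (∏ p ∈ T, p) = ∏ p ∈ T, (roots hit p : ℝ) / p := by
  show ArithmeticFunction.prodPrimeFactors _ _ = _
  rw [ArithmeticFunction.prodPrimeFactors_apply
    (prod_ne_zero_iff.2 fun p hp => (hP p (hT hp)).ne_zero),
    Nat.primeFactors_prod fun p hp => hP p (hT hp)]

lemma sieveData_terms {T : Finset ℕ} (hT : T ⊆ P) :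
    (sieveData hit P N hP hw).selbergTerms (∏ p ∈ T, p) =
      ∏ p ∈ T, ((roots hit p : ℝ) / p) / (1 - (roots hit p : ℝ) / p) := by
  rw [BoundingSieve.selbergTerms_apply, sieveData_nu hP hw hT,
    Nat.primeFactors_prod fun p hp => hP p (hT hp), ← prod_mul_distrib]
  refine prod_congr rfl fun p hp => ?_
  have h := sieveData_nu (N := N) hP hw (T := {p}) (by simpa using hT hp)
  simp only [prod_singleton] at h
  rw [h, div_eq_mul_inv (((roots hit p : ℝ)) / p)]

lemma sieveData_rem (hper : Periodic' hit P) {T : Finset ℕ} (hT : T ⊆ P) :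
    |(sieveData hit P N hP hw).rem (∏ p ∈ T, p)| ≤ ∏ p ∈ T, (roots hit p : ℝ) := by
  have h : (sieveData hit P N hP hw).multSum (∏ p ∈ T, p) =
      (((Ioc 0 N).filter (fun n => ∀ p ∈ T, hit p n)).card : ℝ) := by
    simp only [BoundingSieve.multSum]
    show ∑ v ∈ (Ioc 0 N).image (struck hit P), (if (∏ p ∈ T, p) ∣ v then
      (((Ioc 0 N).filter (fun n => struck hit P n = v)).card : ℝ) else 0) = _
    have h2 : (Ioc 0 N).filter (fun n => ∀ p ∈ T, hit p n) =
        (Ioc 0 N).filter (fun n => (∏ p ∈ T, p) ∣ struck hit P n) := by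
      refine filter_congr fun n _ => ?_
      constructor
      · intro h
        exact prod_dvd_prod_of_subset _ _ (fun p => p) fun p hp => mem_filter.2 ⟨hT hp, h p hp⟩
      · intro h p hp
        have h0 : struck hit P n ≠ 0 :=
          prod_ne_zero_iff.2 fun q hq => (hP q (mem_filter.1 hq).1).ne_zero
        have := Nat.primeFactors_mono h h0
        rw [struck, Nat.primeFactors_prod fun q hq => hP q (mem_filter.1 hq).1,
          Nat.primeFactors_prod fun q hq => hP q (hT hq)] at this
        exact (mem_filter.1 (this hp)).2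
    rw [h2, card_eq_sum_card_fiberwise (f := struck hit P)
      (t := (Ioc 0 N).image (struck hit P)) (by
        intro n hn
        simp only [coe_filter, Set.mem_ofPred_eq] at hn
        exact mem_coe.2 (mem_image_of_mem _ hn.1))]
    push_cast
    refine sum_congr rfl fun v _ => ?_
    split_ifs with hv
    · congr 2
      ext n
      simp only [mem_filter]
      exact ⟨fun h => ⟨⟨h.1, h.2.symm ▸ hv⟩, h.2⟩, fun h => ⟨h.1.1, h.2⟩⟩
    · rw [eq_comm, Nat.cast_eq_zero, card_eq_zero, filter_eq_empty_iff]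
      intro n hn he
      exact hv (he ▸ (mem_filter.1 hn).2)
  rw [BoundingSieve.rem, h, sieveData_nu hP hw hT, mul_comm]
  exact count_allHit T (fun p hp => hP p (hT hp)) (fun p hp => hper p (hT hp)) N

/-- Optimal weights of the Selberg sieve at level `D`. -/
theorem selberg_bound (s : BoundingSieve) (D : ℕ) (hD : 1 ≤ D)
    (hnu : ∀ d, d ∣ s.prodPrimes → s.selbergTerms d ≤ (d : ℝ) * s.nu d)
    (hrem : ∀ d, d ∣ s.prodPrimes → |s.rem d| ≤ d) :
    s.siftedSum ≤
      s.totalMass / (∑ l ∈ s.prodPrimes.divisors.filter (· ≤ D), s.selbergTerms l) +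
        (D : ℝ) ^ 6 := by
  set Pr := s.prodPrimes.divisors with hPr
  set G := ∑ l ∈ Pr.filter (· ≤ D), s.selbergTerms l with hG
  have hP0 : s.prodPrimes ≠ 0 := BoundingSieve.prodPrimes_ne_zero
  have hpos : ∀ l ∈ Pr, 0 < s.selbergTerms l := fun l hl =>
    BoundingSieve.selbergTerms_pos (Nat.dvd_of_mem_divisors hl)
  have h1mem : 1 ∈ Pr.filter (· ≤ D) :=
    mem_filter.2 ⟨Nat.one_mem_divisors.2 hP0, hD⟩
  have hG0 : 0 < G :=
    sum_pos (fun l hl => hpos l (mem_filter.1 hl).1) ⟨1, h1mem⟩
  set y : ℕ → ℝ := fun l => if l ≤ D then s.selbergTerms l * (μ l : ℝ) / G else 0 with hy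
  set w : ℕ → ℝ := fun d =>
    (s.nu d)⁻¹ * ∑ m ∈ Pr, if d ∣ m then (μ (m / d) : ℝ) * y m else 0 with hwdef
  have hdiag : ∀ l ∈ Pr, (∑ d ∈ Pr, if l ∣ d then s.nu d * w d else 0) = y l := by
    intro l hl
    have h1 : ∀ d ∈ Pr, (if l ∣ d then s.nu d * w d else 0) =
        ∑ m ∈ Pr, if l ∣ d ∧ d ∣ m then (μ (m / d) : ℝ) * y m else 0 := by
      intro d hd
      have hd0 := BoundingSieve.nu_ne_zero (s := s) (Nat.dvd_of_mem_divisors hd)
      split_ifs with h
      · simp only [hwdef, ← mul_assoc, mul_inv_cancel₀ hd0, one_mul, h, true_and]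
      · simp [h]
    rw [sum_congr rfl h1, sum_comm, sum_eq_single l]
    · rw [sum_eq_single l]
      · simp [Nat.div_self (Nat.pos_of_mem_divisors hl)]
      · intro d _ hne
        rw [if_neg]
        exact fun h => hne (Nat.dvd_antisymm h.2 h.1)
      · exact fun h => absurd hl h
    · intro m hm hne
      by_cases hlm : l ∣ m
      · have hm0 : m ≠ 0 := Nat.ne_zero_of_mem_divisors (Nat.mem_divisors_self m
          (fun h => by simp [h, hPr] at hm))
        obtain ⟨k, rfl⟩ := hlm
        have hk : k ≠ 1 := fun h => hne (by simp [h])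
        rw [← sum_filter]
        have hset : Pr.filter (fun d => l ∣ d ∧ d ∣ l * k) = k.divisors.image (l * ·) := by
          ext d
          simp only [hPr, mem_filter, Nat.mem_divisors, mem_image]
          constructor
          · rintro ⟨-, ⟨e, rfl⟩, he⟩
            exact ⟨e, ⟨Nat.dvd_of_mul_dvd_mul_left
              (Nat.pos_of_ne_zero (left_ne_zero_of_mul hm0)) he, right_ne_zero_of_mul hm0⟩, rfl⟩
          · rintro ⟨e, ⟨he, -⟩, rfl⟩
            exact ⟨⟨(mul_dvd_mul_left l he).trans (Nat.dvd_of_mem_divisors hm), hP0⟩,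
              dvd_mul_right l e, mul_dvd_mul_left l he⟩
        have hl0 : 0 < l := Nat.pos_of_mem_divisors hl
        rw [hset, sum_image fun a _ b _ h => Nat.eq_of_mul_eq_mul_left hl0 h, ← sum_mul]
        simp only [Nat.mul_div_mul_left _ _ hl0]
        rw [Nat.sum_div_divisors k (fun e => (μ e : ℝ))]
        have hzero : (∑ e ∈ k.divisors, (μ e : ℝ)) = 0 := by
          have h := congrArg (fun f : ArithmeticFunction ℤ => f k)
            ArithmeticFunction.moebius_mul_coe_zeta
          simp only [ArithmeticFunction.coe_mul_zeta_apply, ArithmeticFunction.one_apply,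
            if_neg hk] at h
          exact_mod_cast h
        rw [hzero, zero_mul]
      · refine sum_eq_zero fun d _ => if_neg fun h => hlm (h.1.trans h.2)
    · exact fun h => absurd hl h
  have hsqmu : ∀ l ∈ Pr, (μ l : ℝ) * (μ l : ℝ) = 1 := fun l hl => by
    have := ArithmeticFunction.moebius_sq_eq_one_of_squarefree
      (BoundingSieve.squarefree_of_mem_divisors_prodPrimes (s := s) hl)
    rw [← sq]
    exact_mod_cast this
  have hmain : s.mainSum (BoundingSieve.lambdaSquared w) = 1 / G := by
    rw [BoundingSieve.mainSum_lambdaSquared_eq_sum_mul_sum_sq,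
      sum_congr rfl fun l hl => by rw [hdiag l hl]]
    calc ∑ l ∈ Pr, (s.selbergTerms l)⁻¹ * y l ^ 2
        = ∑ l ∈ Pr, if l ≤ D then s.selbergTerms l / G ^ 2 else 0 := by
          refine sum_congr rfl fun l hl => ?_
          have := (hpos l hl).ne'
          simp only [hy]
          split_ifs
          · rw [div_pow, mul_pow, sq (μ l : ℝ), hsqmu l hl]
            field_simp
          · simp
      _ = 1 / G := by
          rw [← sum_filter, ← sum_div, ← hG]
          field_simp
  have hw1 : w 1 = 1 := by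
    simp only [hwdef, s.nu_mult.map_one, inv_one, one_mul, one_dvd, if_true, Nat.div_one]
    calc ∑ m ∈ Pr, (μ m : ℝ) * y m
        = ∑ m ∈ Pr, if m ≤ D then s.selbergTerms m / G else 0 := by
          refine sum_congr rfl fun m hm => ?_
          simp only [hy]
          split_ifs
          · rw [← mul_div_assoc, mul_left_comm, hsqmu m hm, mul_one]
          · simp
      _ = 1 := by rw [← sum_filter, ← sum_div, ← hG, div_self hG0.ne']
  have hwbound : ∀ d ∈ Pr, |w d| ≤ if d ≤ D then (d : ℝ) else 0 := by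
    intro d hd
    have hdP := Nat.dvd_of_mem_divisors hd
    have hν := BoundingSieve.nu_pos_of_dvd_prodPrimes (s := s) hdP
    have hd0 := Nat.pos_of_mem_divisors hd
    have h1 : |w d| ≤ (s.nu d)⁻¹ *
        ∑ m ∈ (Pr.filter (· ≤ D)).filter (d ∣ ·), s.selbergTerms m / G := by
      simp only [hwdef, abs_mul, abs_inv, abs_of_pos hν]
      refine mul_le_mul_of_nonneg_left ((abs_sum_le_sum_abs _ _).trans ?_) (inv_nonneg.2 hν.le)
      rw [filter_filter, sum_filter]
      refine sum_le_sum fun m hm => ?_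
      have hg := hpos m hm
      by_cases hdm : d ∣ m
      · by_cases hmD : m ≤ D
        · simp only [hy, hdm, hmD, if_true, and_self, abs_mul, abs_div, abs_of_pos hg,
            abs_of_pos hG0]
          have h1 : |(μ (m / d) : ℝ)| ≤ 1 := by
            exact_mod_cast ArithmeticFunction.abs_moebius_le_one
          have h2 : |(μ m : ℝ)| ≤ 1 := by
            exact_mod_cast ArithmeticFunction.abs_moebius_le_one
          calc |(μ (m / d) : ℝ)| * (s.selbergTerms m * |(μ m : ℝ)| / G)
              ≤ 1 * (s.selbergTerms m * 1 / G) := by gcongr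
            _ = _ := by ring
        · simp [hy, hdm, hmD]
      · simp [hdm]
    have hsum : ∑ m ∈ (Pr.filter (· ≤ D)).filter (d ∣ ·), s.selbergTerms m ≤
        s.selbergTerms d * (if d ≤ D then G else 0) := by
      split_ifs with hdD
      · rw [hG, mul_sum]
        refine le_trans (le_of_eq (sum_congr rfl fun m hm => ?_))
          ((sum_image (f := fun e => s.selbergTerms d * s.selbergTerms e) (g := (· / d))
            (s := (Pr.filter (· ≤ D)).filter (d ∣ ·)) ?_).symm.le.trans
            (sum_le_sum_of_subset_of_nonneg ?_ fun e he _ => ?_))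
        · simp only [mem_filter] at hm
          obtain ⟨e, rfl⟩ := hm.2
          have hsq := BoundingSieve.squarefree_of_mem_divisors_prodPrimes (s := s) hm.1.1
          rw [Nat.mul_div_cancel_left _ hd0,
            BoundingSieve.selbergTerms_isMultiplicative.map_mul_of_coprime
              (Nat.coprime_of_squarefree_mul hsq)]
        · intro a ha b hb h
          simp only [coe_filter, Set.mem_ofPred_eq] at ha hb
          exact Nat.div_left_inj ha.2 hb.2 |>.1 h
        · intro e he
          simp only [mem_image, mem_filter, hPr, Nat.mem_divisors] at he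
          obtain ⟨m, ⟨⟨⟨hmP, hne⟩, hmD⟩, hdm⟩, rfl⟩ := he
          simp only [mem_filter, hPr, Nat.mem_divisors]
          exact ⟨⟨(Nat.div_dvd_of_dvd hdm).trans hmP, hne⟩, (Nat.div_le_self m d).trans hmD⟩
        · exact mul_nonneg (hpos d hd).le (hpos e (mem_filter.1 he).1).le
      · rw [sum_eq_zero, mul_zero]
        intro m hm
        simp only [mem_filter] at hm
        exact absurd ((Nat.le_of_dvd (Nat.pos_of_mem_divisors hm.1.1) hm.2).trans hm.1.2) hdD
    refine h1.trans ?_
    rw [← sum_div]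
    calc (s.nu d)⁻¹ * ((∑ m ∈ (Pr.filter (· ≤ D)).filter (d ∣ ·), s.selbergTerms m) / G)
        ≤ (s.nu d)⁻¹ * ((s.selbergTerms d * (if d ≤ D then G else 0)) / G) := by gcongr
      _ ≤ _ := by
        split_ifs with hdD
        · rw [mul_div_assoc, div_self hG0.ne', mul_one, inv_mul_le_iff₀ hν, mul_comm]
          exact hnu d hdP
        · simp
  have herr : s.errSum (BoundingSieve.lambdaSquared w) ≤ (D : ℝ) ^ 6 := by
    rw [BoundingSieve.errSum]
    calc ∑ d ∈ Pr, |BoundingSieve.lambdaSquared w d| * |s.rem d|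
        ≤ ∑ d ∈ Pr, ∑ d1 ∈ Pr, ∑ d2 ∈ Pr,
            if d = Nat.lcm d1 d2 then |w d1| * |w d2| * |s.rem d| else 0 := by
          refine sum_le_sum fun d hd => ?_
          have hsub : d.divisors ⊆ Pr :=
            Nat.divisors_subset_of_dvd hP0 (Nat.dvd_of_mem_divisors hd)
          simp only [BoundingSieve.lambdaSquared]
          refine le_trans (mul_le_mul_of_nonneg_right
            ((abs_sum_le_sum_abs _ _).trans (sum_le_sum fun d1 _ => abs_sum_le_sum_abs _ _))
            (abs_nonneg _)) ?_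
          rw [sum_mul]
          refine le_trans (sum_le_sum_of_subset_of_nonneg hsub fun i _ _ =>
            mul_nonneg (sum_nonneg fun j _ => abs_nonneg _) (abs_nonneg _)) ?_
          refine sum_le_sum fun d1 _ => ?_
          rw [sum_mul]
          refine le_trans (sum_le_sum_of_subset_of_nonneg hsub fun i _ _ =>
            mul_nonneg (abs_nonneg _) (abs_nonneg _)) ?_
          refine sum_le_sum fun d2 _ => ?_
          split_ifs <;> simp [abs_mul]
      _ = ∑ d1 ∈ Pr, ∑ d2 ∈ Pr, |w d1| * |w d2| * |s.rem (Nat.lcm d1 d2)| := by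
          rw [sum_comm]
          refine sum_congr rfl fun d1 hd1 => ?_
          rw [sum_comm]
          refine sum_congr rfl fun d2 hd2 => ?_
          rw [sum_ite_eq_of_mem']
          exact Nat.mem_divisors.2 ⟨Nat.lcm_dvd (Nat.dvd_of_mem_divisors hd1)
            (Nat.dvd_of_mem_divisors hd2), hP0⟩
      _ ≤ ∑ d1 ∈ Pr, ∑ d2 ∈ Pr, (|w d1| * d1) * (|w d2| * d2) := by
          refine sum_le_sum fun d1 hd1 => sum_le_sum fun d2 hd2 => ?_
          have hl : Nat.lcm d1 d2 ∣ s.prodPrimes := Nat.lcm_dvd (Nat.dvd_of_mem_divisors hd1)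
            (Nat.dvd_of_mem_divisors hd2)
          have hle : ((Nat.lcm d1 d2 : ℕ) : ℝ) ≤ (d1 : ℝ) * d2 := by
            exact_mod_cast Nat.le_of_dvd (Nat.mul_pos (Nat.pos_of_mem_divisors hd1)
              (Nat.pos_of_mem_divisors hd2)) (Nat.lcm_dvd_mul d1 d2)
          calc |w d1| * |w d2| * |s.rem (Nat.lcm d1 d2)|
              ≤ |w d1| * |w d2| * ((d1 : ℝ) * d2) :=
                mul_le_mul_of_nonneg_left ((hrem _ hl).trans hle) (by positivity)
            _ = _ := by ring
      _ = (∑ d ∈ Pr, |w d| * d) ^ 2 := by rw [sq, sum_mul_sum]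
      _ ≤ ((D : ℝ) * ((D : ℝ) * D)) ^ 2 := by
          refine pow_le_pow_left₀ (sum_nonneg fun d _ => by positivity) ?_ 2
          calc ∑ d ∈ Pr, |w d| * d ≤ ∑ d ∈ Pr, if d ≤ D then (D : ℝ) * D else 0 := by
                refine sum_le_sum fun d hd => ?_
                have h := hwbound d hd
                split_ifs with hdD
                · rw [if_pos hdD] at h
                  have hdR : (d : ℝ) ≤ D := by exact_mod_cast hdD
                  exact mul_le_mul (h.trans hdR) hdR (by positivity) (by positivity)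
                · rw [if_neg hdD] at h
                  rw [le_antisymm h (abs_nonneg _), zero_mul]
            _ ≤ (D : ℝ) * ((D : ℝ) * D) := by
                rw [← sum_filter, sum_const, nsmul_eq_mul]
                refine mul_le_mul_of_nonneg_right ?_ (by positivity)
                have : (Pr.filter (· ≤ D)).card ≤ (Icc 1 D).card :=
                  card_le_card fun d hd => mem_Icc.2
                    ⟨Nat.pos_of_mem_divisors (mem_filter.1 hd).1, (mem_filter.1 hd).2⟩
                exact_mod_cast this.trans_eq (by simp)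
      _ = _ := by ring
  have h := BoundingSieve.siftedSum_le_mainSum_errSum_of_upperMoebius _
    (BoundingSieve.upperMoebius_lambdaSquared w hw1) (s := s)
  rw [hmain, ← div_eq_mul_one_div] at h
  linarith

/-- The sum of `log p / p` over primes up to `z`. -/
lemma sum_log_div : ∃ C : ℝ, 0 ≤ C ∧ ∀ (z : ℕ) (P : Finset ℕ), 1 ≤ z →
    (∀ p ∈ P, p.Prime ∧ p ≤ z) → ∑ p ∈ P, Real.log p / (p : ℝ) ≤ Real.log z + C := by
  obtain ⟨C, hC⟩ := P013.lam_bounds
  refine ⟨max C 0, le_max_right _ _, fun z P hz hP => ?_⟩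
  refine le_trans ?_ ((hC z hz).2.trans (add_le_add le_rfl (le_max_left _ _)))
  rw [P013.lam]
  calc ∑ p ∈ P, Real.log p / (p : ℝ)
      = ∑ p ∈ P, ArithmeticFunction.vonMangoldt p / (p : ℝ) := sum_congr rfl fun p hp => by
        rw [ArithmeticFunction.vonMangoldt_apply_prime (hP p hp).1]
    _ ≤ _ := sum_le_sum_of_subset_of_nonneg
        (fun p hp => mem_Icc.2 ⟨(hP p hp).1.one_lt.le, (hP p hp).2⟩)
        fun p _ _ => div_nonneg ArithmeticFunction.vonMangoldt_nonneg p.cast_nonneg

/-- The upper bound sieve of dimension at most three. -/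
theorem sieve_bound : ∃ A : ℕ, 1 ≤ A ∧ ∀ (z N : ℕ) (P : Finset ℕ) (hit : ℕ → ℕ → Prop), 2 ≤ z →
    (∀ p ∈ P, p.Prime ∧ p ≤ z) → Periodic' hit P →
    (∀ p ∈ P, 1 ≤ roots hit p ∧ roots hit p < p ∧ roots hit p ≤ 3) →
    (((Ioc 0 N).filter (fun n => ∀ p ∈ P, ¬ hit p n)).card : ℝ) ≤
      2 * N * Real.exp (-∑ p ∈ P, (roots hit p : ℝ) / p) + (z : ℝ) ^ A := by
  obtain ⟨C, hC0, hC⟩ := sum_log_div
  obtain ⟨B, hB⟩ := exists_nat_ge (6 + 6 * C / Real.log 2 + 1)
  have hB1 : 1 ≤ B := by
    have : (0 : ℝ) ≤ 6 * C / Real.log 2 := by positivity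
    exact_mod_cast (show (1 : ℝ) ≤ B by linarith)
  refine ⟨6 * B, by omega, fun z N P hit hz hP hper hw => ?_⟩
  have hP' : ∀ p ∈ P, p.Prime := fun p hp => (hP p hp).1
  have hw' : ∀ p ∈ P, 1 ≤ roots hit p ∧ roots hit p < p := fun p hp => ⟨(hw p hp).1, (hw p hp).2.1⟩
  set s := sieveData hit P N hP' hw' with hs
  set ν : ℕ → ℝ := fun p => (roots hit p : ℝ) / p with hν
  set g : ℕ → ℝ := fun p => ν p / (1 - ν p) with hg
  set D := z ^ B with hD
  have hzR : (2 : ℝ) ≤ z := by exact_mod_cast hz
  have hlz : 0 < Real.log z := Real.log_pos (by linarith)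
  have hν01 : ∀ p ∈ P, 0 < ν p ∧ ν p < 1 := fun p hp => by
    have hp0 : (0 : ℝ) < p := by exact_mod_cast (hP' p hp).pos
    refine ⟨div_pos (by exact_mod_cast (hw p hp).1) hp0, ?_⟩
    rw [hν, div_lt_one hp0]
    exact_mod_cast (hw p hp).2.1
  have hg0 : ∀ p ∈ P, 0 ≤ g p := fun p hp =>
    div_nonneg (hν01 p hp).1.le (by linarith [(hν01 p hp).2])
  have hdvdT : ∀ d, d ∣ s.prodPrimes → ∃ T ⊆ P, d = ∏ p ∈ T, p := by
    intro d hd
    refine ⟨d.primeFactors, ?_, ?_⟩
    · have := Nat.primeFactors_mono (n := ∏ p ∈ P, p) hd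
        (prod_ne_zero_iff.2 fun q hq => (hP' q hq).ne_zero)
      rwa [Nat.primeFactors_prod hP'] at this
    · exact (Nat.prod_primeFactors_of_squarefree
        (BoundingSieve.squarefree_of_dvd_prodPrimes hd)).symm
  have hbound := selberg_bound s D (Nat.one_le_pow _ _ (by omega)) ?_ ?_
  rotate_left
  · intro d hd
    obtain ⟨T, hT, rfl⟩ := hdvdT d hd
    rw [sieveData_terms hP' hw' hT, sieveData_nu hP' hw' hT, Nat.cast_prod, ← prod_mul_distrib]
    refine prod_le_prod (fun p hp => hg0 p (hT hp)) fun p hp => ?_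
    have hp0 : (0 : ℝ) < p := by exact_mod_cast (hP' p (hT hp)).pos
    have h1 : (roots hit p : ℝ) + 1 ≤ p := by exact_mod_cast (hw p (hT hp)).2.1
    have h2 : (0 : ℝ) ≤ roots hit p := Nat.cast_nonneg _
    rw [one_sub_div hp0.ne', div_div_div_cancel_right₀ hp0.ne', mul_div_cancel₀ _ hp0.ne']
    exact div_le_self h2 (by linarith)
  · intro d hd
    obtain ⟨T, hT, rfl⟩ := hdvdT d hd
    refine (sieveData_rem hP' hw' hper hT).trans ?_
    rw [Nat.cast_prod]
    exact prod_le_prod (fun p _ => Nat.cast_nonneg _) fun p _ => by exact_mod_cast roots_le hit p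
  have hsift : (((Ioc 0 N).filter (fun n => ∀ p ∈ P, ¬ hit p n)).card : ℝ) ≤ s.siftedSum := by
    have hset : (Ioc 0 N).filter (fun n => ∀ p ∈ P, ¬ hit p n) =
        (Ioc 0 N).filter (fun n => struck hit P n = 1) := by
      refine filter_congr fun n _ => ?_
      rw [struck]
      constructor
      · intro h
        rw [filter_false_of_mem h, prod_empty]
      · intro h p hp hh
        have := prod_eq_one_iff.1 h p (mem_filter.2 ⟨hp, hh⟩)
        exact (hP' p hp).ne_one this
    rw [hset]
    by_cases h1 : (1 : ℕ) ∈ (Ioc 0 N).image (struck hit P)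
    · rw [BoundingSieve.siftedSum]
      refine le_trans (le_of_eq ?_) (single_le_sum (fun v _ => ?_) h1)
      · rw [if_pos (Nat.coprime_one_right _)]
        rfl
      · split_ifs
        exacts [s.weights_nonneg v, le_rfl]
    · have he : (Ioc 0 N).filter (fun n => struck hit P n = 1) = ∅ :=
        filter_eq_empty_iff.2 fun n hn he => h1 (mem_image.2 ⟨n, hn, he⟩)
      rw [he]
      simp only [card_empty, Nat.cast_zero]
      exact sum_nonneg fun v _ => by split_ifs <;> [exact s.weights_nonneg v; exact le_rfl]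
  refine hsift.trans (hbound.trans ?_)
  have hDz : (D : ℝ) ^ 6 = (z : ℝ) ^ (6 * B) := by
    rw [hD, Nat.cast_pow, ← pow_mul, mul_comm]
  rw [hDz]
  refine add_le_add ?_ le_rfl
  set G := ∑ l ∈ s.prodPrimes.divisors.filter (· ≤ D), s.selbergTerms l with hG
  -- Rankin's trick with exponent `1 / log z`.
  set u : ℕ → ℝ := fun p => Real.exp (Real.log p / Real.log z) with hu
  have hterm : ∀ T ∈ P.powerset, s.selbergTerms (∏ p ∈ T, p) = ∏ p ∈ T, g p := fun T hT =>
    sieveData_terms hP' hw' (mem_powerset.1 hT)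
  have hGeq : G = ∑ T ∈ P.powerset,
      if (∏ p ∈ T, p) ≤ D then ∏ p ∈ T, g p else 0 := by
    rw [hG, sum_filter, show s.prodPrimes = ∏ p ∈ P, p from rfl, sum_divisors_primeProd P hP']
    exact sum_congr rfl fun T hT => by rw [hterm T hT]
  have hsplit : ∏ p ∈ P, (1 + g p) ≤
      G + Real.exp (-(B : ℝ)) * ∏ p ∈ P, (1 + g p * u p) := by
    rw [prod_one_add, prod_one_add, hGeq, mul_sum, ← sum_add_distrib]
    refine sum_le_sum fun T hT => ?_
    have hT' := mem_powerset.1 hT
    have hg' : 0 ≤ ∏ p ∈ T, g p := prod_nonneg fun p hp => hg0 p (hT' hp)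
    split_ifs with hle
    · exact le_add_of_nonneg_right (mul_nonneg (Real.exp_nonneg _)
        (prod_nonneg fun p hp => mul_nonneg (hg0 p (hT' hp)) (Real.exp_nonneg _)))
    · rw [zero_add, prod_mul_distrib, mul_left_comm]
      refine le_mul_of_one_le_right hg' ?_
      rw [hu, ← Real.exp_sum, ← Real.exp_add]
      refine Real.one_le_exp ?_
      have h1 : ∑ p ∈ T, Real.log p / Real.log z =
          Real.log ((∏ p ∈ T, p : ℕ) : ℝ) / Real.log z := by
        rw [Nat.cast_prod, Real.log_prod fun p hp => by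
          exact_mod_cast (hP' p (hT' hp)).ne_zero, sum_div]
      have hD0 : (0 : ℝ) < (D : ℝ) := by
        rw [hD, Nat.cast_pow]; positivity
      have h2 : (B : ℝ) * Real.log z ≤ Real.log ((∏ p ∈ T, p : ℕ) : ℝ) := by
        rw [← Real.log_pow, ← Nat.cast_pow]
        exact Real.log_le_log hD0 (by exact_mod_cast (not_le.1 hle).le)
      rw [h1, ← sub_eq_neg_add, sub_nonneg, le_div_iff₀ hlz]
      exact h2
  have hratio : ∏ p ∈ P, (1 + g p * u p) ≤ Real.exp ((B : ℝ) - 1) * ∏ p ∈ P, (1 + g p) := by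
    have hpt : ∀ p ∈ P, 1 + g p * u p ≤
        Real.exp (6 / Real.log z * (Real.log p / p)) * (1 + g p) := by
      intro p hp
      obtain ⟨h0, h1⟩ := hν01 p hp
      have hp0 : (0 : ℝ) < p := by exact_mod_cast (hP' p hp).pos
      have hlp : 0 ≤ Real.log (p : ℝ) := Real.log_natCast_nonneg p
      have ht0 : 0 ≤ Real.log p / Real.log z := div_nonneg hlp hlz.le
      have ht1 : Real.log p / Real.log z ≤ 1 := by
        rw [div_le_one hlz]
        exact Real.log_le_log hp0 (by exact_mod_cast (hP p hp).2)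
      have hu1 : u p - 1 ≤ 2 * (Real.log p / Real.log z) := by
        have := Real.abs_exp_sub_one_le (x := Real.log p / Real.log z)
          (by rwa [abs_of_nonneg ht0])
        rw [abs_of_nonneg ht0] at this
        exact (le_abs_self _).trans this
      have hν3 : ν p ≤ 3 / p := div_le_div_of_nonneg_right
        (by exact_mod_cast (hw p hp).2.2) hp0.le
      have hid : g p = ν p * (1 + g p) := by
        simp only [hg]
        field_simp [show (1 - ν p) ≠ 0 by linarith]
        ring
      calc 1 + g p * u p = (1 + ν p * (u p - 1)) * (1 + g p) := by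
            linear_combination (u p - 1) * hid
        _ ≤ (1 + 3 / p * (2 * (Real.log p / Real.log z))) * (1 + g p) := by
            refine mul_le_mul_of_nonneg_right (add_le_add le_rfl ?_) (by linarith [hg0 p hp])
            have hu0 : 0 ≤ u p - 1 := by
              rw [sub_nonneg, hu]; exact Real.one_le_exp ht0
            exact mul_le_mul hν3 hu1 hu0 (by positivity)
        _ ≤ _ := by
            refine mul_le_mul_of_nonneg_right ?_ (by linarith [hg0 p hp])
            refine le_trans (le_of_eq ?_) (le_trans (le_of_eq (add_comm 1 _)) (Real.add_one_le_exp _))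
            ring
    refine (prod_le_prod (fun p hp => add_nonneg zero_le_one
      (mul_nonneg (hg0 p hp) (Real.exp_nonneg _))) hpt).trans ?_
    rw [prod_mul_distrib, ← Real.exp_sum, ← mul_sum]
    refine mul_le_mul_of_nonneg_right (Real.exp_le_exp.2 ?_)
      (prod_nonneg fun p hp => by linarith [hg0 p hp])
    refine le_trans (mul_le_mul_of_nonneg_left (hC z P (by omega) hP) (by positivity)) ?_
    have hl2 : 0 < Real.log 2 := Real.log_pos (by norm_num)
    have h2z : Real.log 2 ≤ Real.log z := Real.log_le_log (by norm_num) hzR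
    calc 6 / Real.log z * (Real.log z + C) = 6 + 6 * C / Real.log z := by field_simp
      _ ≤ 6 + 6 * C / Real.log 2 := by gcongr
      _ ≤ _ := by linarith
  have hprod : Real.exp (∑ p ∈ P, ν p) ≤ ∏ p ∈ P, (1 + g p) := by
    rw [Real.exp_sum]
    refine prod_le_prod (fun p _ => Real.exp_nonneg _) fun p hp => ?_
    obtain ⟨h0, h1⟩ := hν01 p hp
    have h2 : 1 + g p = (1 - ν p)⁻¹ := by
      simp only [hg]
      field_simp [show (1 - ν p) ≠ 0 by linarith]
      ring
    rw [h2, le_inv_comm₀ (Real.exp_pos _) (by linarith), ← Real.exp_neg]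
    linarith [Real.add_one_le_exp (-ν p)]
  have hGlow : Real.exp (∑ p ∈ P, ν p) / 2 ≤ G := by
    have h1 : Real.exp (-(B : ℝ)) * (Real.exp ((B : ℝ) - 1) * ∏ p ∈ P, (1 + g p)) ≤
        (∏ p ∈ P, (1 + g p)) / 2 := by
      rw [← mul_assoc, ← Real.exp_add, show -(B : ℝ) + ((B : ℝ) - 1) = -1 by ring, Real.exp_neg,
        ← div_eq_inv_mul]
      refine div_le_div_of_nonneg_left (prod_nonneg fun p hp => by linarith [hg0 p hp])
        (by norm_num) ?_
      linarith [Real.add_one_le_exp (1 : ℝ)]
    have h2 := mul_le_mul_of_nonneg_left hratio (Real.exp_nonneg (-(B : ℝ)))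
    linarith
  have hG0 : (0 : ℝ) < Real.exp (∑ p ∈ P, ν p) / 2 := by positivity
  calc (N : ℝ) / G ≤ N / (Real.exp (∑ p ∈ P, ν p) / 2) :=
        div_le_div_of_nonneg_left (Nat.cast_nonneg N) hG0 hGlow
    _ = _ := by rw [Real.exp_neg]; field_simp

end Vale.Agent.P031
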