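import Vale.Agent.P031.Interfaces
import Vale.Agent.P031.Sieve.Selberg
import Vale.Agent.P031.Sieve.Mertens

/-!
# Sieve bounds for shifted primes
-/

open Finset
open scoped Classical

namespace Vale.Agent.P031

lemma sqrt_le_div_log (j : ℕ) : ∃ C : ℝ, 0 < C ∧ ∀ Y : ℝ, 2 ≤ Y →
    Real.sqrt Y ≤ C * (Y / Real.log Y ^ j) := by
  refine ⟨(2 * ((j : ℝ) + 1)) ^ j, by positivity, fun Y hY => ?_⟩
  have hY0 : 0 < Y := by linarith
  have hl : 0 < Real.log Y := Real.log_pos (by linarith)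
  set ε : ℝ := 1 / (2 * ((j : ℝ) + 1)) with hε
  have hlog : Real.log Y ≤ 2 * ((j : ℝ) + 1) * Y ^ ε := by
    refine (Real.log_le_rpow_div hY0.le (by positivity : (0 : ℝ) < ε)).trans (le_of_eq ?_)
    rw [hε]; field_simp
  have hpow : Real.log Y ^ j ≤ (2 * ((j : ℝ) + 1)) ^ j * Real.sqrt Y := by
    refine (pow_le_pow_left₀ hl.le hlog j).trans ?_
    rw [mul_pow]
    refine mul_le_mul_of_nonneg_left ?_ (by positivity)
    rw [← Real.rpow_natCast (Y ^ ε), ← Real.rpow_mul hY0.le, Real.sqrt_eq_rpow]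
    refine Real.rpow_le_rpow_of_exponent_le (by linarith) ?_
    rw [hε, div_mul_eq_mul_div, div_le_iff₀ (by positivity)]
    linarith
  rw [← mul_div_assoc, le_div_iff₀ (by positivity)]
  calc Real.sqrt Y * Real.log Y ^ j ≤ Real.sqrt Y * ((2 * ((j : ℝ) + 1)) ^ j * Real.sqrt Y) :=
        mul_le_mul_of_nonneg_left hpow (Real.sqrt_nonneg Y)
    _ = _ := by rw [mul_left_comm, Real.mul_self_sqrt hY0.le]

/-- The sieve applied with a level that is a power of `Y`. -/
theorem sift (k : ℕ) : ∃ (C : ℝ) (A : ℕ), 0 < C ∧ ∀ Y : ℝ, 2 ≤ Y →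
    ∃ z : ℕ, 2 ≤ z ∧ Real.log Y ≤ A * Real.log z ∧
      ∀ (P F : Finset ℕ) (hit : ℕ → ℕ → Prop) (E : ℝ), (∀ p ∈ P, p.Prime ∧ p ≤ z) →
        Periodic' hit P → (∀ p ∈ P, 1 ≤ roots hit p ∧ roots hit p < p ∧ roots hit p ≤ 3) →
        (k : ℝ) * recipSum z - E ≤ ∑ p ∈ P, (roots hit p : ℝ) / p →
        (∀ n ∈ F, 0 < n ∧ (n : ℝ) ≤ Y ∧ (z < n → ∀ p ∈ P, ¬ hit p n)) →
        (F.card : ℝ) ≤ C * (Y / Real.log Y ^ k * Real.exp E + Real.sqrt Y) := by
  obtain ⟨a, ha, hbound⟩ := sieve_bound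
  refine ⟨max (2 * Real.exp (2 * k) * (4 * a : ℝ) ^ k) (2 * 2 ^ a), 4 * a,
    lt_of_lt_of_le (by positivity) (le_max_right _ _), fun Y hY => ?_⟩
  have hY0 : 0 < Y := by linarith
  have haR : (1 : ℝ) ≤ a := by exact_mod_cast ha
  set t : ℝ := Y ^ ((1 : ℝ) / (2 * a)) with ht
  have ht1 : 1 ≤ t := Real.one_le_rpow (by linarith) (by positivity)
  set z := max 2 ⌊t⌋₊ with hz
  have hz2 : 2 ≤ z := le_max_left _ _
  have hzR : (2 : ℝ) ≤ z := by exact_mod_cast hz2
  have hzt : (z : ℝ) ≤ 2 * t := by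
    rw [hz, Nat.cast_max]
    exact max_le (by push_cast; linarith) ((Nat.floor_le (by linarith)).trans (by linarith))
  have htz : t ≤ (z : ℝ) ^ 2 := by
    have h1 := (Nat.lt_floor_add_one t).le
    have h2 : ((⌊t⌋₊ : ℕ) : ℝ) ≤ z := by exact_mod_cast le_max_right 2 ⌊t⌋₊
    nlinarith
  have hlog : Real.log Y ≤ ((4 * a : ℕ) : ℝ) * Real.log z := by
    have h := Real.log_le_log (by linarith) htz
    rw [ht, Real.log_rpow hY0, Real.log_pow, div_mul_eq_mul_div, one_mul,
      div_le_iff₀ (by positivity)] at h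
    push_cast at h ⊢
    linarith
  have hzpow : (z : ℝ) ^ a ≤ 2 ^ a * Real.sqrt Y := by
    refine (pow_le_pow_left₀ (by positivity) hzt a).trans (le_of_eq ?_)
    rw [mul_pow, ht, ← Real.rpow_natCast (Y ^ _), ← Real.rpow_mul hY0.le, Real.sqrt_eq_rpow]
    congr 2
    field_simp
  refine ⟨z, hz2, hlog, fun P F hit E hP hper hw hsum hF => ?_⟩
  have hl : 0 < Real.log Y := Real.log_pos (by linarith)
  have hlz : 0 < Real.log z := Real.log_pos (by linarith)
  have hexp : Real.exp (-∑ p ∈ P, (roots hit p : ℝ) / p) ≤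
      Real.exp (2 * k) * (4 * a : ℝ) ^ k / Real.log Y ^ k * Real.exp E := by
    calc Real.exp (-∑ p ∈ P, (roots hit p : ℝ) / p)
        ≤ Real.exp ((k : ℝ) * (2 - Real.log (Real.log z)) + E) := by
          refine Real.exp_le_exp.2 ?_
          nlinarith [recipSum_ge z hz2, Nat.cast_nonneg (α := ℝ) k]
      _ = Real.exp (2 * k) / Real.log z ^ k * Real.exp E := by
          rw [Real.exp_add, mul_sub, Real.exp_sub, ← Real.log_pow, Real.exp_log (by positivity),
            mul_comm (k : ℝ) 2]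
      _ ≤ _ := by
          refine mul_le_mul_of_nonneg_right ?_ (Real.exp_nonneg E)
          rw [div_le_div_iff₀ (by positivity) (by positivity), mul_assoc (Real.exp _), ← mul_pow]
          refine mul_le_mul_of_nonneg_left (pow_le_pow_left₀ hl.le ?_ k) (Real.exp_nonneg _)
          push_cast at hlog
          exact hlog
  have hcard : (F.card : ℝ) ≤
      2 * (⌊Y⌋₊ : ℝ) * Real.exp (-∑ p ∈ P, (roots hit p : ℝ) / p) + (z : ℝ) ^ a + z := by
    have hsub : F ⊆ (Ioc 0 ⌊Y⌋₊).filter (fun n => ∀ p ∈ P, ¬ hit p n) ∪ Icc 1 z := by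
      intro n hn
      obtain ⟨h0, hY', hh⟩ := hF n hn
      rcases le_or_gt n z with h | h
      · exact mem_union_right _ (mem_Icc.2 ⟨h0, h⟩)
      · exact mem_union_left _ (mem_filter.2 ⟨mem_Ioc.2 ⟨h0, Nat.le_floor hY'⟩, hh h⟩)
    have h1 : (F.card : ℝ) ≤
        (((Ioc 0 ⌊Y⌋₊).filter (fun n => ∀ p ∈ P, ¬ hit p n)).card : ℝ) + z := by
      have := (card_le_card hsub).trans (card_union_le _ _)
      rw [Nat.card_Icc, Nat.add_sub_cancel] at this
      exact_mod_cast this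
    linarith [hbound z ⌊Y⌋₊ P hit hz2 hP hper hw]
  have hza : (z : ℝ) ≤ (z : ℝ) ^ a := le_self_pow₀ (by linarith) (by omega)
  have hfl : (⌊Y⌋₊ : ℝ) ≤ Y := Nat.floor_le hY0.le
  have h1 : 2 * (⌊Y⌋₊ : ℝ) * Real.exp (-∑ p ∈ P, (roots hit p : ℝ) / p) ≤
      2 * Y * (Real.exp (2 * k) * (4 * a : ℝ) ^ k / Real.log Y ^ k * Real.exp E) := by
    gcongr
  have h2 := mul_le_mul_of_nonneg_right
    (le_max_left (2 * Real.exp (2 * k) * (4 * a : ℝ) ^ k) (2 * 2 ^ a))
    (show 0 ≤ Y / Real.log Y ^ k * Real.exp E by positivity)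
  have h3 := mul_le_mul_of_nonneg_right
    (le_max_right (2 * Real.exp (2 * k) * (4 * a : ℝ) ^ k) (2 * 2 ^ a)) (Real.sqrt_nonneg Y)
  rw [mul_add]
  ring_nf at h1 h2 h3 hcard hzpow hza ⊢
  linarith

/-- The primes up to `z`. -/
lemma mem_primesUpTo {z p : ℕ} : p ∈ (range (z + 1)).filter Nat.Prime ↔ p ≤ z ∧ p.Prime := by
  simp

lemma dvd_mul_mod_iff (p a b n : ℕ) : p ∣ a * (n % p) + b ↔ p ∣ a * n + b :=
  (((Nat.mod_modEq n p).mul_left a).add_right b).dvd_iff dvd_rfl

/-- The class at which `a * n + 1` vanishes modulo `p`. -/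
lemma exists_root {p a : ℕ} (hp : p.Prime) (ha : ¬ p ∣ a) :
    ∃ r, r < p ∧ r ≠ 0 ∧ ∀ x < p, (p ∣ a * x + 1 ↔ x = r) := by
  have := Fact.mk hp
  have ha' : (a : ZMod p) ≠ 0 := fun h => ha ((ZMod.natCast_eq_zero_iff a p).1 h)
  set r : ZMod p := -(a : ZMod p)⁻¹ with hr
  have hr0 : r ≠ 0 := neg_ne_zero.2 (inv_ne_zero ha')
  refine ⟨r.val, ZMod.val_lt r, fun h => hr0 ((ZMod.val_eq_zero r).1 h), fun x hx => ?_⟩
  rw [← ZMod.natCast_eq_zero_iff (a * x + 1) p]
  push_cast
  constructor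
  · intro h
    have : (x : ZMod p) = r := by
      rw [hr, ← sub_eq_zero]
      field_simp
      linear_combination h
    rw [← this, ZMod.val_natCast_of_lt hx]
  · rintro rfl
    rw [ZMod.natCast_zmod_val, hr]
    field_simp
    ring

lemma roots_prog {p a : ℕ} (hp : p.Prime) (ha : ¬ p ∣ a) :
    roots (fun p n => p ∣ a * n + 1) p = 1 := by
  obtain ⟨r, hr, -, hx⟩ := exists_root hp ha
  rw [roots, card_eq_one]
  refine ⟨r, ?_⟩
  ext x
  simp only [mem_filter, mem_range, Finset.mem_singleton]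
  exact ⟨fun h => (hx x h.1).1 h.2, fun h => h ▸ ⟨hr, (hx r hr).2 rfl⟩⟩

/-- **Primes in a progression.** -/
theorem sieveProg : SieveProgStmt := by
  obtain ⟨C, A, hC, hsift⟩ := sift 1
  obtain ⟨C', hC', hsq⟩ := sqrt_le_div_log 1
  refine ⟨C + C * C', fun Y hY d hd => ?_⟩
  obtain ⟨z, -, -, hz⟩ := hsift Y hY
  set P := ((range (z + 1)).filter Nat.Prime).filter (fun p => ¬ p ∣ d) with hP
  set hit : ℕ → ℕ → Prop := fun p n => p ∣ d * n + 1 with hhit
  set E := ∑ p ∈ d.primeFactors, (1 : ℝ) / p with hE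
  set X : ℝ := (d : ℝ) / d.totient with hX
  have hphi : (0 : ℝ) < d.totient := by exact_mod_cast Nat.totient_pos.2 hd
  have hdR : (0 : ℝ) < d := by exact_mod_cast hd
  have hEX : Real.exp E ≤ X := by
    have h : (d.totient : ℝ) = d * ∏ p ∈ d.primeFactors, (1 - (p : ℝ)⁻¹) := by
      have h := congrArg (fun q : ℚ => (q : ℝ)) (Nat.totient_eq_mul_prod_factors d)
      push_cast at h
      exact h
    have h2 : ∏ p ∈ d.primeFactors, (1 - (p : ℝ)⁻¹) ≤ Real.exp (-E) := by
      rw [hE, ← sum_neg_distrib, Real.exp_sum]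
      refine prod_le_prod (fun p hp => ?_) fun p hp => ?_
      · rw [sub_nonneg]
        exact inv_le_one_of_one_le₀ (by exact_mod_cast (Nat.prime_of_mem_primeFactors hp).one_lt.le)
      · rw [one_div]
        linarith [Real.add_one_le_exp (-(p : ℝ)⁻¹)]
    rw [hX, le_div_iff₀ hphi, h]
    calc Real.exp E * ((d : ℝ) * ∏ p ∈ d.primeFactors, (1 - (p : ℝ)⁻¹))
        ≤ Real.exp E * ((d : ℝ) * Real.exp (-E)) := by gcongr
      _ = d := by rw [mul_left_comm, ← Real.exp_add]; simp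
  have hX1 : 1 ≤ X := le_trans (Real.one_le_exp (sum_nonneg fun p _ => by positivity)) hEX
  have hroots : ∀ p ∈ P, roots hit p = 1 := fun p hp =>
    roots_prog (mem_primesUpTo.1 (mem_filter.1 hp).1).2 (mem_filter.1 hp).2
  have hcount := hz P ((Finset.Icc 1 ⌊Y⌋₊).filter (fun n => (d * n + 1).Prime)) hit E
    (fun p hp => ((mem_primesUpTo.1 (mem_filter.1 hp).1)).symm)
    (fun p _ n => (dvd_mul_mod_iff p d 1 n).symm)
    (fun p hp => by
      rw [hroots p hp]
      exact ⟨le_rfl, (mem_primesUpTo.1 (mem_filter.1 hp).1).2.one_lt, by norm_num⟩) ?_ ?_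
  rotate_left
  · rw [Nat.cast_one, one_mul, sub_le_iff_le_add, recipSum,
      ← sum_filter_add_sum_filter_not ((range (z + 1)).filter Nat.Prime) (fun p => ¬ p ∣ d)]
    refine add_le_add (le_of_eq (sum_congr rfl fun p hp => by rw [hroots p hp, Nat.cast_one]))
      (sum_le_sum_of_subset_of_nonneg (fun p hp => ?_) fun p _ _ => by positivity)
    simp only [mem_filter, not_not] at hp
    exact Nat.mem_primeFactors.2 ⟨hp.1.2, hp.2, hd.ne'⟩
  · intro n hn
    simp only [mem_filter, Finset.mem_Icc] at hn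
    refine ⟨hn.1.1, le_trans (by exact_mod_cast hn.1.2) (Nat.floor_le (by linarith)),
      fun hzn p hp hh => ?_⟩
    have hp' := mem_primesUpTo.1 (mem_filter.1 hp).1
    have heq := (Nat.prime_dvd_prime_iff_eq hp'.2 hn.2).1 hh
    have : n ≤ d * n := Nat.le_mul_of_pos_left n hd
    omega
  have hl : 0 < Real.log Y := Real.log_pos (by linarith)
  have hs := hsq Y hY
  rw [pow_one] at hs hcount
  have hY0 : 0 ≤ Y / Real.log Y := by positivity
  calc _ ≤ C * (Y / Real.log Y * Real.exp E + Real.sqrt Y) := hcount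
    _ ≤ C * (Y / Real.log Y * X + C' * (Y / Real.log Y) * X) := by
        gcongr
        exact hs.trans (le_mul_of_one_le_right (by positivity) hX1)
    _ = _ := by ring

lemma roots_avoid (S : Finset ℕ) {p : ℕ} (hp : p.Prime) (hS : p ∈ S → 3 ≤ p) :
    roots (fun p n => p ∣ n + 1 ∨ (p ∈ S ∧ p ∣ n)) p = if p ∈ S then 2 else 1 := by
  have hp2 := hp.two_le
  have key : ∀ x < p, p ∣ x + 1 ↔ x = p - 1 := fun x hx =>
    ⟨fun h => by have := Nat.le_of_dvd (by omega) h; omega,
     fun h => by rw [h, Nat.sub_add_cancel (by omega)]⟩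
  have key0 : ∀ x < p, p ∣ x ↔ x = 0 := fun x hx =>
    ⟨fun h => Nat.eq_zero_of_dvd_of_lt h hx, fun h => h ▸ dvd_zero p⟩
  rw [roots]
  split_ifs with h
  · have : (range p).filter (fun x => p ∣ x + 1 ∨ (p ∈ S ∧ p ∣ x)) = {p - 1, 0} := by
      ext x
      simp only [mem_filter, mem_range, mem_insert, Finset.mem_singleton, h, true_and]
      constructor
      · rintro ⟨hx, hh⟩
        rwa [key x hx, key0 x hx] at hh
      · intro hx
        have hxp : x < p := by rcases hx with rfl | rfl <;> omega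
        exact ⟨hxp, by rwa [key x hxp, key0 x hxp]⟩
    convert (congrArg Finset.card this).trans (card_pair (by have := hS h; omega)) using 3
  · have : (range p).filter (fun x => p ∣ x + 1 ∨ (p ∈ S ∧ p ∣ x)) = {p - 1} := by
      ext x
      simp only [mem_filter, mem_range, Finset.mem_singleton, h, false_and, or_false]
      constructor
      · rintro ⟨hx, hh⟩
        exact (key x hx).1 hh
      · rintro rfl
        exact ⟨by omega, (key _ (by omega)).2 rfl⟩
    convert (congrArg Finset.card this).trans (card_singleton _) using 3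

/-- **Shifted primes avoiding a set of primes.** -/
theorem sieveAvoid : SieveAvoidStmt := by
  obtain ⟨C, A, hC, hsift⟩ := sift 1
  obtain ⟨K, hK0, hK⟩ := P013.prime_range
  obtain ⟨C₂, hC₂, e, he⟩ := exp_recip_small 1
  obtain ⟨C', hC', hsq⟩ := sqrt_le_div_log (e + 1)
  have hl2 : 0 < Real.log 2 := Real.log_pos (by norm_num)
  set c := (A : ℝ) * (1 + K / Real.log 2) with hc
  refine ⟨C * Real.exp c + C * C' * C₂, fun Y hY S hS => ?_⟩
  obtain ⟨z, hz2, hzA, hz⟩ := hsift Y hY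
  have hY0 : 0 < Y := by linarith
  have hl : 0 < Real.log Y := Real.log_pos (by linarith)
  have hzR : (2 : ℝ) ≤ z := by exact_mod_cast hz2
  have hlz : 0 < Real.log z := Real.log_pos (by linarith)
  set s := ∑ r ∈ S, (1 : ℝ) / r with hs
  set P := (range (z + 1)).filter Nat.Prime with hP
  set hit : ℕ → ℕ → Prop := fun p n => p ∣ n + 1 ∨ (p ∈ S ∧ p ∣ n) with hhit
  set Q := (Finset.Icc 2 ⌊Y⌋₊).filter (fun q => q.Prime ∧ ∀ r ∈ S, ¬ r ∣ q - 1) with hQ
  have hroots : ∀ p ∈ P, roots hit p = if p ∈ S then 2 else 1 := fun p hp =>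
    roots_avoid S (mem_primesUpTo.1 hp).2 fun h => (hS p h).2.1
  have htail : ∑ r ∈ S.filter (fun r => ¬ r ≤ z), (1 : ℝ) / r ≤ c := by
    refine (hK z 2 A _ hzR one_le_two fun r hr => ?_).trans ?_
    · rw [mem_filter] at hr
      refine ⟨(hS r hr.1).1, by exact_mod_cast not_le.1 hr.2, (hS r hr.1).2.2.trans ?_⟩
      rw [Real.rpow_def_of_pos (by linarith), ← Real.exp_log hY0]
      refine Real.exp_le_exp.2 (hzA.trans ?_)
      rw [mul_comm]
      refine mul_le_mul_of_nonneg_left ?_ hlz.le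
      exact_mod_cast Nat.lt_two_pow_self.le
    · have hA : (A : ℝ) * K / Real.log z ≤ (A : ℝ) * K / Real.log 2 :=
        div_le_div_of_nonneg_left (by positivity) hl2 (Real.log_le_log (by norm_num) hzR)
      rw [hc, mul_add, ← mul_div_assoc]
      linarith
  have hcount := hz P (Q.image (fun q => q - 1)) hit (c - s)
    (fun p hp => (mem_primesUpTo.1 hp).symm) ?_ ?_ ?_ ?_
  rotate_left
  · intro p _ n
    have h1 := dvd_mul_mod_iff p 1 1 n
    rw [one_mul, one_mul] at h1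
    simp only [hhit, h1, Nat.dvd_mod_iff (dvd_refl p)]
  · intro p hp
    have hpp := (mem_primesUpTo.1 hp).2
    rw [hroots p hp]
    split_ifs with h
    · exact ⟨by norm_num, (hS p h).2.1, by norm_num⟩
    · exact ⟨le_rfl, hpp.one_lt, by norm_num⟩
  · have h1 : ∑ p ∈ P, (roots hit p : ℝ) / p =
        ∑ p ∈ P, (1 : ℝ) / p + ∑ p ∈ P.filter (· ∈ S), (1 : ℝ) / p := by
      rw [sum_filter (· ∈ S), ← sum_add_distrib]
      refine sum_congr rfl fun p hp => ?_
      rw [hroots p hp]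
      split_ifs <;> push_cast <;> ring
    have h2 : ∑ r ∈ S.filter (fun r => r ≤ z), (1 : ℝ) / r ≤
        ∑ p ∈ P.filter (· ∈ S), (1 : ℝ) / p := by
      refine sum_le_sum_of_subset_of_nonneg (fun r hr => ?_) fun _ _ _ => by positivity
      rw [mem_filter] at hr
      exact mem_filter.2 ⟨mem_primesUpTo.2 ⟨hr.2, (hS r hr.1).1⟩, hr.1⟩
    have h3 := sum_filter_add_sum_filter_not S (fun r => r ≤ z) (fun r : ℕ => (1 : ℝ) / r)
    rw [Nat.cast_one, one_mul, h1, recipSum, ← hP]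
    linarith
  · intro n hn
    obtain ⟨q, hq, rfl⟩ := mem_image.1 hn
    rw [hQ, mem_filter, Finset.mem_Icc] at hq
    refine ⟨by omega, ?_, fun hzn p hp hh => ?_⟩
    · refine le_trans ?_ ((Nat.floor_le hY0.le))
      exact_mod_cast (Nat.sub_le q 1).trans hq.1.2
    · have hp' := mem_primesUpTo.1 hp
      rcases hh with hh | ⟨hpS, hh⟩
      · rw [Nat.sub_add_cancel (by omega)] at hh
        have := (Nat.prime_dvd_prime_iff_eq hp'.2 hq.2.1).1 hh
        omega
      · exact hq.2.2 p hpS hh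
  rw [card_image_of_injOn (fun a ha b hb h => by
    simp only [hQ, coe_filter, Set.mem_ofPred_eq, Finset.mem_Icc] at ha hb
    have h' : a - 1 = b - 1 := h
    omega), pow_one] at hcount
  have hS' : 1 ≤ C₂ * Real.log Y ^ e * Real.exp (-s) := by
    have h := he Y S hY fun r hr => ⟨(hS r hr).1, (hS r hr).2.2⟩
    rw [Nat.cast_one, one_mul] at h
    rw [Real.exp_neg, ← div_eq_mul_inv, one_le_div (Real.exp_pos _)]
    exact h
  have hsqrt : Real.sqrt Y ≤ C' * C₂ * (Y / Real.log Y) * Real.exp (-s) := by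
    calc Real.sqrt Y ≤ C' * (Y / Real.log Y ^ (e + 1)) := hsq Y hY
      _ ≤ C' * (Y / Real.log Y ^ (e + 1)) * (C₂ * Real.log Y ^ e * Real.exp (-s)) :=
          le_mul_of_one_le_right (by positivity) hS'
      _ = _ := by field_simp; ring
  calc (Q.card : ℝ) ≤ C * (Y / Real.log Y * Real.exp (c - s) + Real.sqrt Y) := hcount
    _ ≤ C * (Y / Real.log Y * Real.exp (c - s) +
          C' * C₂ * (Y / Real.log Y) * Real.exp (-s)) := by gcongr
    _ = _ := by rw [sub_eq_add_neg, Real.exp_add]; ring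

lemma one_le_loglog (x : ℝ) (hx : 1 ≤ x) : 1 ≤ Real.log (Real.log (x + 16)) := by
  have h16 : Real.exp 1 ≤ Real.log (x + 16) := by
    have h1 : Real.log 16 ≤ Real.log (x + 16) := Real.log_le_log (by norm_num) (by linarith)
    have h2 : Real.log 16 = 4 * Real.log 2 := by
      rw [show (16 : ℝ) = 2 ^ 4 by norm_num, Real.log_pow]; norm_num
    linarith [Real.exp_one_lt_d9, Real.log_two_gt_d9]
  calc (1 : ℝ) = Real.log (Real.exp 1) := (Real.log_exp 1).symm
    _ ≤ _ := Real.log_le_log (Real.exp_pos 1) h16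

/-- Two shared steps: small primes, and the primes dividing `m`, cost a bounded power. -/
lemma deficit (z k m : ℕ) (hm : 0 < m) (w : ℕ → ℕ)
    (hw : ∀ p, p.Prime → 5 ≤ p → p ≤ z → ¬ p ∣ m → k ≤ w p) :
    (k : ℝ) * recipSum z - (k : ℝ) * (1 + ∑ p ∈ m.primeFactors, (1 : ℝ) / p) ≤
      ∑ p ∈ ((range (z + 1)).filter Nat.Prime).filter (5 ≤ ·), (w p : ℝ) / p := by
  set Pr := (range (z + 1)).filter Nat.Prime with hPr
  rw [recipSum, ← hPr, ← sum_filter_add_sum_filter_not Pr (5 ≤ ·),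
    ← sum_filter_add_sum_filter_not (Pr.filter (5 ≤ ·)) (fun p => ¬ p ∣ m)
      (fun p : ℕ => (1 : ℝ) / p)]
  have h1 : (k : ℝ) * ∑ p ∈ (Pr.filter (5 ≤ ·)).filter (fun p => ¬ p ∣ m), (1 : ℝ) / p ≤
      ∑ p ∈ Pr.filter (5 ≤ ·), (w p : ℝ) / p := by
    rw [mul_sum]
    refine le_trans (sum_le_sum fun p hp => ?_)
      (sum_le_sum_of_subset_of_nonneg (filter_subset _ _) fun _ _ _ => by positivity)
    simp only [hPr, mem_filter, mem_range] at hp
    rw [← mul_div_assoc, mul_one]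
    exact div_le_div_of_nonneg_right
      (by exact_mod_cast hw p hp.1.1.2 hp.1.2 (by omega) hp.2) (Nat.cast_nonneg p)
  have h2 : ∑ p ∈ Pr.filter (fun p => ¬ 5 ≤ p), (1 : ℝ) / p ≤ 1 := by
    refine le_trans (sum_le_sum_of_subset_of_nonneg (t := {2, 3}) (fun p hp => ?_)
      fun _ _ _ => by positivity) (by simp; norm_num)
    simp only [hPr, mem_filter, mem_range] at hp
    have := hp.1.2.two_le
    have : p ≠ 4 := fun h => by norm_num [h] at hp
    simp only [mem_insert, Finset.mem_singleton]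
    omega
  have h3 : ∑ p ∈ (Pr.filter (5 ≤ ·)).filter (fun p => ¬¬ p ∣ m), (1 : ℝ) / p ≤
      ∑ p ∈ m.primeFactors, (1 : ℝ) / p := by
    refine sum_le_sum_of_subset_of_nonneg (fun p hp => ?_) fun _ _ _ => by positivity
    simp only [hPr, mem_filter, not_not] at hp
    exact Nat.mem_primeFactors.2 ⟨hp.1.1.2, hp.2, hm.ne'⟩
  have hk : (0 : ℝ) ≤ k := Nat.cast_nonneg k
  nlinarith

lemma roots_pair {p a : ℕ} (hp : p.Prime) :
    1 ≤ roots (fun p n => p ∣ n ∨ p ∣ a * n + 1) p ∧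
      roots (fun p n => p ∣ n ∨ p ∣ a * n + 1) p ≤ 2 ∧
      (¬ p ∣ a → 2 ≤ roots (fun p n => p ∣ n ∨ p ∣ a * n + 1) p) := by
  rw [roots]
  refine ⟨card_pos.2 ⟨0, by simp [hp.pos]⟩, ?_, fun ha => ?_⟩
  · by_cases ha : p ∣ a
    · refine (card_le_card (t := {0}) fun x hx => ?_).trans (by simp)
      simp only [mem_filter, mem_range, Finset.mem_singleton] at hx ⊢
      rcases hx.2 with h | h
      · exact Nat.eq_zero_of_dvd_of_lt h hx.1
      · exact absurd ((Nat.dvd_add_right (ha.mul_right x)).1 h) hp.not_dvd_one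
    · obtain ⟨r, -, -, hx'⟩ := exists_root hp ha
      refine (card_le_card (t := {0, r}) fun x hx => ?_).trans card_le_two
      simp only [mem_filter, mem_range, mem_insert, Finset.mem_singleton] at hx ⊢
      rcases hx.2 with h | h
      · exact Or.inl (Nat.eq_zero_of_dvd_of_lt h hx.1)
      · exact Or.inr ((hx' x hx.1).1 h)
  · obtain ⟨r, hr, hr0, hx'⟩ := exists_root hp ha
    refine le_trans (card_pair hr0.symm).ge (card_le_card fun x hx => ?_)
    simp only [mem_filter, mem_range, mem_insert, Finset.mem_singleton] at hx ⊢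
    rcases hx with rfl | rfl
    · exact ⟨hp.pos, Or.inl (dvd_zero p)⟩
    · exact ⟨hr, Or.inr ((hx' x hr).2 rfl)⟩

/-- **One linear form with a prime argument.** -/
theorem sievePair : SievePairStmt := by
  obtain ⟨C, A, hC, hsift⟩ := sift 2
  obtain ⟨C', hC', hsq⟩ := sqrt_le_div_log 2
  obtain ⟨C₂, hC₂, e, he⟩ := exp_recip_factors 2
  refine ⟨C * Real.exp 2 * C₂ + C * C', e, fun Y hY a ha => ?_⟩
  obtain ⟨z, -, -, hz⟩ := hsift Y hY
  set P := ((range (z + 1)).filter Nat.Prime).filter (5 ≤ ·) with hP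
  set hit : ℕ → ℕ → Prop := fun p n => p ∣ n ∨ p ∣ a * n + 1 with hhit
  set F := (Finset.Icc 1 ⌊Y⌋₊).filter (fun n => n.Prime ∧ (a * n + 1).Prime) with hF
  set E := ((2 : ℕ) : ℝ) * (1 + ∑ p ∈ a.primeFactors, (1 : ℝ) / p) with hE
  have hcount := hz P F hit E (fun p hp => (mem_primesUpTo.1 (mem_filter.1 hp).1).symm) ?_ ?_ ?_ ?_
  rotate_left
  · intro p _ n
    simp only [hhit, dvd_mul_mod_iff]
    rw [← Nat.dvd_mod_iff dvd_rfl]
  · intro p hp
    have h := mem_filter.1 hp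
    have hr := roots_pair (a := a) (mem_primesUpTo.1 h.1).2
    simp only [hhit]
    exact ⟨hr.1, by omega, by omega⟩
  · exact deficit z 2 a ha _ fun p hp _ _ hd => (roots_pair hp).2.2 hd
  · intro n hn
    rw [hF, mem_filter, Finset.mem_Icc] at hn
    refine ⟨hn.1.1, le_trans (by exact_mod_cast hn.1.2) (Nat.floor_le (by linarith)),
      fun hzn p hp hh => ?_⟩
    have hp' := mem_primesUpTo.1 (mem_filter.1 hp).1
    rcases hh with hh | hh
    · have := (Nat.prime_dvd_prime_iff_eq hp'.2 hn.2.1).1 hh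
      omega
    · have := (Nat.prime_dvd_prime_iff_eq hp'.2 hn.2.2).1 hh
      have : n ≤ a * n := Nat.le_mul_of_pos_left n ha
      omega
  set X := Real.log (Real.log ((a : ℝ) + 16)) ^ e with hX
  have hX1 : 1 ≤ X := one_le_pow₀ (one_le_loglog _ (by exact_mod_cast ha))
  have hEX : Real.exp E ≤ Real.exp 2 * (C₂ * X) := by
    rw [hE, mul_add, mul_one, Real.exp_add, Nat.cast_ofNat]
    exact mul_le_mul_of_nonneg_left (by simpa using he a ha) (Real.exp_nonneg _)
  have hl : 0 < Real.log Y := Real.log_pos (by linarith)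
  have hY0 : (0 : ℝ) ≤ Y := by linarith
  calc (F.card : ℝ) ≤ C * (Y / Real.log Y ^ 2 * Real.exp E + Real.sqrt Y) := hcount
    _ ≤ C * (Y / Real.log Y ^ 2 * (Real.exp 2 * (C₂ * X)) +
          C' * (Y / Real.log Y ^ 2) * X) := by
        gcongr
        exact (hsq Y hY).trans (le_mul_of_one_le_right (by positivity) hX1)
    _ = _ := by ring

lemma roots_triple {p a b : ℕ} (hp : p.Prime) :
    1 ≤ roots (fun p n => p ∣ n ∨ p ∣ a * n + 1 ∨ p ∣ b * n + 1) p ∧
      roots (fun p n => p ∣ n ∨ p ∣ a * n + 1 ∨ p ∣ b * n + 1) p ≤ 3 ∧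
      (¬ p ∣ a → ¬ p ∣ b → ¬ p ∣ max a b - min a b →
        3 ≤ roots (fun p n => p ∣ n ∨ p ∣ a * n + 1 ∨ p ∣ b * n + 1) p) := by
  rw [roots]
  refine ⟨card_pos.2 ⟨0, by simp [hp.pos]⟩, ?_, fun ha hb hab => ?_⟩
  · have huniq : ∀ c, ((range p).filter (fun x => p ∣ c * x + 1)).card ≤ 1 := by
      intro c
      rw [card_le_one]
      intro x hx y hy
      simp only [mem_filter, mem_range] at hx hy
      by_cases hc : p ∣ c
      · exact absurd ((Nat.dvd_add_right (hc.mul_right x)).1 hx.2) hp.not_dvd_one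
      · obtain ⟨r, -, -, h⟩ := exists_root hp hc
        rw [(h x hx.1).1 hx.2, (h y hy.1).1 hy.2]
    refine le_trans (card_le_card (t := (range p).filter (fun x => p ∣ x) ∪
      ((range p).filter (fun x => p ∣ a * x + 1) ∪ (range p).filter (fun x => p ∣ b * x + 1)))
      fun x hx => by simp only [mem_filter, mem_union] at hx ⊢; tauto) ?_
    refine (card_union_le _ _).trans ?_
    refine le_trans (Nat.add_le_add (?_ : _ ≤ 1)
      ((card_union_le _ _).trans (Nat.add_le_add (huniq a) (huniq b)))) le_rfl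
    rw [card_le_one]
    intro x hx y hy
    simp only [mem_filter, mem_range] at hx hy
    rw [Nat.eq_zero_of_dvd_of_lt hx.2 hx.1, Nat.eq_zero_of_dvd_of_lt hy.2 hy.1]
  · obtain ⟨r, hr, hr0, hxa⟩ := exists_root hp ha
    obtain ⟨t, ht, ht0, hxb⟩ := exists_root hp hb
    have hrt : r ≠ t := by
      rintro rfl
      apply hab
      have h1 := (hxa r hr).2 rfl
      have h2 := (hxb r hr).2 rfl
      have hcop : p.Coprime r := hp.coprime_iff_not_dvd.2
        fun h => hr0 (Nat.eq_zero_of_dvd_of_lt h hr)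
      rcases le_total a b with h | h
      · rw [max_eq_right h, min_eq_left h]
        refine hcop.dvd_of_dvd_mul_right ?_
        have := Nat.dvd_sub h2 h1
        rwa [Nat.add_sub_add_right, ← Nat.sub_mul] at this
      · rw [max_eq_left h, min_eq_right h]
        refine hcop.dvd_of_dvd_mul_right ?_
        have := Nat.dvd_sub h1 h2
        rwa [Nat.add_sub_add_right, ← Nat.sub_mul] at this
    refine le_trans (card_eq_three.2 ⟨0, r, t, hr0.symm, ht0.symm, hrt, rfl⟩).ge
      (card_le_card fun x hx => ?_)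
    simp only [mem_filter, mem_range, mem_insert, Finset.mem_singleton] at hx ⊢
    rcases hx with rfl | rfl | rfl
    · exact ⟨hp.pos, Or.inl (dvd_zero p)⟩
    · exact ⟨hr, Or.inr (Or.inl ((hxa x hr).2 rfl))⟩
    · exact ⟨ht, Or.inr (Or.inr ((hxb x ht).2 rfl))⟩

/-- **Two linear forms with a prime argument.** -/
theorem sieveTriple : SieveTripleStmt := by
  obtain ⟨C, A, hC, hsift⟩ := sift 3
  obtain ⟨C', hC', hsq⟩ := sqrt_le_div_log 3
  obtain ⟨C₂, hC₂, e, he⟩ := exp_recip_factors 3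
  refine ⟨C * Real.exp 3 * (C₂ * (Real.log 3 + 1) ^ e) + C * C', e,
    fun Y hY a b ha hb hab => ?_⟩
  obtain ⟨z, -, -, hz⟩ := hsift Y hY
  set P := ((range (z + 1)).filter Nat.Prime).filter (5 ≤ ·) with hP
  set hit : ℕ → ℕ → Prop := fun p n => p ∣ n ∨ p ∣ a * n + 1 ∨ p ∣ b * n + 1 with hhit
  set F := (Finset.Icc 1 ⌊Y⌋₊).filter
    (fun n => n.Prime ∧ (a * n + 1).Prime ∧ (b * n + 1).Prime) with hF
  set m := a * b * (max a b - min a b) with hm
  have hsub : 0 < max a b - min a b := by omega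
  have hm0 : 0 < m := Nat.mul_pos (Nat.mul_pos ha hb) hsub
  set E := ((3 : ℕ) : ℝ) * (1 + ∑ p ∈ m.primeFactors, (1 : ℝ) / p) with hE
  have hcount := hz P F hit E (fun p hp => (mem_primesUpTo.1 (mem_filter.1 hp).1).symm) ?_ ?_ ?_ ?_
  rotate_left
  · intro p _ n
    simp only [hhit, dvd_mul_mod_iff]
    rw [← Nat.dvd_mod_iff dvd_rfl]
  · intro p hp
    have h := mem_filter.1 hp
    have hr := roots_triple (a := a) (b := b) (mem_primesUpTo.1 h.1).2
    simp only [hhit]
    exact ⟨hr.1, by omega, by omega⟩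
  · refine deficit z 3 m hm0 _ fun p hp _ _ hd => (roots_triple hp).2.2 ?_ ?_ ?_
    · exact fun h => hd ((h.mul_right b).mul_right _)
    · exact fun h => hd ((h.mul_left a).mul_right _)
    · exact fun h => hd (h.mul_left _)
  · intro n hn
    rw [hF, mem_filter, Finset.mem_Icc] at hn
    refine ⟨hn.1.1, le_trans (by exact_mod_cast hn.1.2) (Nat.floor_le (by linarith)),
      fun hzn p hp hh => ?_⟩
    have hp' := mem_primesUpTo.1 (mem_filter.1 hp).1
    rcases hh with hh | hh | hh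
    · have := (Nat.prime_dvd_prime_iff_eq hp'.2 hn.2.1).1 hh
      omega
    · have := (Nat.prime_dvd_prime_iff_eq hp'.2 hn.2.2.1).1 hh
      have : n ≤ a * n := Nat.le_mul_of_pos_left n ha
      omega
    · have := (Nat.prime_dvd_prime_iff_eq hp'.2 hn.2.2.2).1 hh
      have : n ≤ b * n := Nat.le_mul_of_pos_left n hb
      omega
  set x := (a : ℝ) + b + 16 with hx
  set X := Real.log (Real.log x) ^ e with hX
  have haR : (1 : ℝ) ≤ a := by exact_mod_cast ha
  have hbR : (1 : ℝ) ≤ b := by exact_mod_cast hb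
  have hll : 1 ≤ Real.log (Real.log x) := one_le_loglog _ (by linarith)
  have hX1 : 1 ≤ X := one_le_pow₀ hll
  have hmX : Real.log (Real.log ((m : ℝ) + 16)) ^ e ≤ (Real.log 3 + 1) ^ e * X := by
    rw [hX, ← mul_pow]
    have hl0 : 0 < Real.log x := Real.log_pos (by linarith)
    have hmle : (m : ℝ) + 16 ≤ x ^ 3 := by
      have h1 : m + 16 ≤ (a + b + 16) ^ 3 := by
        have h2 : max a b - min a b ≤ a + b := by omega
        have h3 : m ≤ (a + b) * (a + b) * (a + b) := by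
          rw [hm]
          exact Nat.mul_le_mul (Nat.mul_le_mul (by omega) (by omega)) h2
        nlinarith
      rw [hx]
      exact_mod_cast h1
    have hm16 : (1 : ℝ) < (m : ℝ) + 16 := by linarith [Nat.cast_nonneg (α := ℝ) m]
    have h1 : Real.log ((m : ℝ) + 16) ≤ 3 * Real.log x := by
      have h := Real.log_le_log (by linarith) hmle
      rwa [Real.log_pow] at h
    have h2 : Real.log (Real.log ((m : ℝ) + 16)) ≤ Real.log 3 + Real.log (Real.log x) :=
      (Real.log_le_log (Real.log_pos hm16) h1).trans_eq (Real.log_mul (by norm_num) hl0.ne')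
    refine pow_le_pow_left₀ (le_trans zero_le_one ?_) (h2.trans ?_) e
    · exact one_le_loglog _ (by exact_mod_cast hm0)
    · have : 0 ≤ Real.log 3 := Real.log_nonneg (by norm_num)
      nlinarith
  have hEX : Real.exp E ≤ Real.exp 3 * (C₂ * ((Real.log 3 + 1) ^ e * X)) := by
    rw [hE, mul_add, mul_one, Real.exp_add, Nat.cast_ofNat]
    refine mul_le_mul_of_nonneg_left (le_trans ?_ (mul_le_mul_of_nonneg_left hmX hC₂.le))
      (Real.exp_nonneg _)
    simpa using he m hm0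
  have hl : 0 < Real.log Y := Real.log_pos (by linarith)
  have hY0 : (0 : ℝ) ≤ Y := by linarith
  calc (F.card : ℝ) ≤ C * (Y / Real.log Y ^ 3 * Real.exp E + Real.sqrt Y) := hcount
    _ ≤ C * (Y / Real.log Y ^ 3 * (Real.exp 3 * (C₂ * ((Real.log 3 + 1) ^ e * X))) +
          C' * (Y / Real.log Y ^ 3) * X) := by
        gcongr
        exact (hsq Y hY).trans (le_mul_of_one_le_right (by positivity) hX1)
    _ = _ := by ring

end Vale.Agent.P031
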